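import Vale.Agent.P216H.Glob
import Vale.Agent.P216D.ShiL
import Vale.Agent.P216B.Sp

/-! # Harnack: the trace inequality and its integrated forms -/

open scoped Manifold ContDiff Topology
open Set Filter

set_option maxSynthPendingDepth 3
set_option linter.unusedSimpArgs false

noncomputable section

namespace Vale.Agent.P216H

open Vale.Agent.P216R Vale.Agent.P216D Vale.Agent.P216D.Loc

lemma trace_loc {L : Loc} (h : P216R.RF L.g L.I L.U) (p : L.O) {u : ℝ}
    (hN : NZ (L.g (t p)) (x p) u 0 0) (v : E3) :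
    0 ≤ derivWithin (fun s => scG (L.g s) (x p)) L.I (t p) + 2 * u * scG (L.g (t p)) (x p) +
      2 * fderiv ℝ (scG (L.g (t p))) (x p) v + 2 * ricG (L.g (t p)) (x p) v v := by
  obtain ⟨X, rfl⟩ : ∃ X : Fin 3 → ℝ, v = ∑ a, X a • e p a := ⟨_, (on_g p).expand v⟩
  have h1 := trace_nonneg (rf h) (ev p) (algebraMap ℝ L.A u) (fun W y => by
    rw [ev_zf]; simpa [zP] using hN (e p) (on_g p) (W, y)) X
  have h2 : 2 * ev p (L.fl.Dt L.fr.S) = derivWithin (fun s => scG (L.g s) (x p)) L.I (t p) := by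
    rw [← ev_Dt_sc sm_scG p, ← S_sc, two_mul, two_mul, map_add, map_add]
  have h3 : ∀ a, 2 * ev p (L.fr.D a L.fr.S) = fderiv ℝ (scG (L.g (t p))) (x p) (e p a) := fun a => by
    rw [← ev_D_sc sm_scG p, ← S_sc, two_mul, two_mul, map_add, map_add]
  have h4 : ∀ a b, mp (ev p) L.fl.K a b = ricG (L.g (t p)) (x p) (e p a) (e p b) := fun a b =>
    (congrArg (ev p) ((rf h).ric a b)).trans (ev_Ric p a b)
  rw [← h2, ← ev_S]
  simp only [bf, dt, h4, AlgHom.commutes, Algebra.algebraMap_self, RingHom.id_apply, rf_toFl,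
    fl_toFr] at h1
  simp only [Fin.sum_univ_three, map_add, map_smul, add_apply, smul_apply, smul_eq_mul, ← h3]
  linarith

variable {M : Type} [TopologicalSpace M] [ChartedSpace E3 M] [IsManifold 𝓘(ℝ, E3) ∞ M]
  {g : ℝ → Ten E3 M} {I : Set ℝ} {a b s t K : ℝ} {U : Set M} {x y : M}

/-- the trace Harnack inequality `R_t + c R + 2 dR(v) + 2 Ric(v, v) ≥ 0` -/
def TH (g : ℝ → Ten E3 M) (I : Set ℝ) (t : ℝ) (x : M) (c : ℝ) : Prop :=
  ∀ v : E3, 0 ≤ derivWithin (fun s => Sc (g s) x) I t + c * Sc (g t) x +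
    2 * fderiv ℝ (rd E3 (Sc (g t)) x) (pt E3 x) v + 2 * Ric (g t) x v v

lemma th_of_nz (h : RF g I U) (hI : Iv I) (ht : t ∈ I) (hx : x ∈ U) {u : ℝ}
    (hN : NZ (g t) x u 0 0) : TH g I t x (2 * u) := fun v => by
  have h1 : rd E3 (Sc (g t)) x =ᶠ[𝓝 (pt E3 x)] scG (co (g t) x) :=
    ((isOpen_dom x h.isOpen).eventually_mem (pt_mem_dom hx)).mono fun z hz => (h.met ht).rd_Sc hz
  rw [h1.fderiv_eq]
  exact trace_loc (L := loc (h.co x).toFam hI) (h.co x) 
    (Loc.sec (b := (t, pt E3 x)) ⟨ht, pt_mem_dom hx⟩)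
    ((li_NZ (li_chart (h.met ht) hx (mem_chart_source E3 x))).1 hN) v

/-- the derivative of the scalar curvature along a curve -/
lemma sc_curve (h : Fam g I U) (ht : I ∈ 𝓝 t) {γ : ℝ → M} (hx : γ t ∈ U) (hd : DAt E3 γ t) :
    HasDerivAt (fun s => Sc (g s) (γ s)) (derivWithin (fun s => Sc (g s) (γ t)) I t +
      fderiv ℝ (rd E3 (Sc (g t)) (γ t)) (pt E3 (γ t)) (vel E3 γ t)) t := by
  have h1 : DifferentiableAt ℝ (fun q : ℝ × E3 => rd E3 (Sc (g q.1)) (γ t) q.2) (t, pt E3 (γ t)) :=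
    (ContDiffWithinAt.contDiffAt (h.ps_Sc (mem_of_mem_nhds ht) (pt_mem_dom hx))
      (prod_mem_nhds ht univ_mem)).differentiableAt (by simp)
  have h2 : HasDerivAt (chartAt E3 (γ t) ∘ γ) (vel E3 γ t) t := by
    rw [vel_eq_deriv hd]
    exact (mdifferentiableAt_iff_differentiableAt.1
      ((sm_chart (mem_chart_source E3 _)).md.comp t hd)).hasDerivAt
  have a1 := (h1.hasFDerivAt.comp_hasDerivAt (f := fun s => (s, pt E3 (γ t))) t
    ((hasDerivAt_id t).prodMk (hasDerivAt_const t _))).deriv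
  have a2 := (h1.hasFDerivAt.comp (f := fun z => (t, z)) (pt E3 (γ t))
    (hasFDerivAt_prodMk_right t _)).fderiv
  refine ((h1.hasFDerivAt.comp_hasDerivAt (f := fun s => (s, (chartAt E3 (γ t) ∘ γ) s)) t
    ((hasDerivAt_id t).prodMk h2)).congr_deriv ?_).congr_of_eventuallyEq ?_
  · simp only [Function.comp_def, rd_pt] at a1 a2
    rw [derivWithin_of_mem_nhds ht, a1, a2, ContinuousLinearMap.comp_apply, ← map_add]
    simp
  · filter_upwards [hd.continuousAt.eventually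
      ((chartAt E3 (γ t)).open_source.mem_nhds (mem_chart_source E3 _))] with s hs
    simp only [Function.comp, rd, (chartAt E3 (γ t)).left_inv hs]

/-- the trace Harnack inequality integrated along a curve -/
lemma along (h : RF g I U) (hst : s ≤ t) (hI : Icc s t ⊆ I)
    (hs : ∀ τ ∈ Ioo s t, ∀ x ∈ U, SecGe (g τ) x 0) {w c : ℝ → ℝ} (hw : ContinuousOn w (Icc s t))
    (hw' : ∀ τ ∈ Ioo s t, HasDerivAt w (c τ * w τ) τ) (hw0 : ∀ τ ∈ Ioo s t, 0 ≤ w τ)
    (hT : ∀ τ ∈ Ioo s t, ∀ x ∈ U, TH g I τ x (c τ)) {γ : ℝ → M} (hc : ContinuousOn γ (Icc s t))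
    (hm : MapsTo γ (Icc s t) U) (hd : ∀ τ ∈ Ioo s t, DAt E3 γ τ) {k : ℝ}
    (hk : ∀ τ ∈ Ioo s t, g τ (γ τ) (vel E3 γ τ) (vel E3 γ τ) ≤ k) :
    w s * Sc (g s) (γ s) ≤ Real.exp (k / 4 * (t - s)) * (w t * Sc (g t) (γ t)) := by
  have h1 : ContinuousOn (fun τ => Sc (g τ) (γ τ)) (Icc s t) :=
    (P216BF.sc_cont h.toFam).comp (f := fun τ => (τ, γ τ)) (continuousOn_id.prodMk hc)
      fun τ k => ⟨hI k, hm k⟩
  have h2 := fun τ (k' : τ ∈ Ioo s t) =>
    ((((hasDerivAt_id' τ).sub_const s).const_mul (k / 4)).exp.fun_mul ((hw' τ k').fun_mul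
      (sc_curve h.toFam (mem_of_superset (Icc_mem_nhds k'.1 k'.2) hI)
        (hm (Ioo_subset_Icc_self k')) (hd τ k'))))
  have h3 := monotoneOn_of_deriv_nonneg (convex_Icc s t)
    (f := fun τ => Real.exp (k / 4 * (τ - s)) * (w τ * Sc (g τ) (γ τ)))
    (ContinuousOn.mul (by fun_prop) (hw.mul h1))
    (fun τ k' => (h2 τ (by simpa using k')).differentiableAt.differentiableWithinAt) fun τ k' => by
      rw [interior_Icc] at k'
      rw [(h2 τ k').deriv]
      have m := h.met (hI (Ioo_subset_Icc_self k'))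
      have n := hm (Ioo_subset_Icc_self k')
      have e1 := hT τ k' _ n ((1 / 2 : ℝ) • vel E3 γ τ)
      have e2 := P216BF.ricLe_sc3 P216BF.finrank_E3 m n (κ := 0) (by simpa using hs τ k' _ n)
        (vel E3 γ τ)
      have e3 := P216BF.sc_ge3 P216BF.finrank_E3 m n (hs τ k' _ n)
      have e4 := mul_le_mul_of_nonneg_left (hk τ k') (show 0 ≤ Sc (g τ) (γ τ) by linarith)
      simp only [map_smul, smul_apply, smul_eq_mul] at e1
      have e5 := mul_nonneg (mul_nonneg (Real.exp_pos (k / 4 * (τ - s))).le (hw0 τ k'))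
        (show 0 ≤ k / 4 * Sc (g τ) (γ τ) + c τ * Sc (g τ) (γ τ) +
          (derivWithin (fun s => Sc (g s) (γ τ)) I τ +
          fderiv ℝ (rd E3 (Sc (g τ)) (γ τ)) (pt E3 (γ τ)) (vel E3 γ τ)) by linarith)
      linarith
  simpa using h3 ⟨le_rfl, hst⟩ ⟨hst, le_rfl⟩ hst

/-- the trace Harnack inequality integrated along a minimising geodesic -/
lemma along_geo (h : RF g I U) (hst : s < t) (hI : Icc s t ⊆ I) (hH : Hs U) (hU : IsPreconnected U)
    (hc : Cpl (g s) U) (hs : ∀ τ ∈ Ioo s t, ∀ x ∈ U, SecGe (g τ) x 0) {w c : ℝ → ℝ}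
    (hw : ContinuousOn w (Icc s t)) (hw' : ∀ τ ∈ Ioo s t, HasDerivAt w (c τ * w τ) τ)
    (hw0 : ∀ τ ∈ Ioo s t, 0 ≤ w τ) (hT : ∀ τ ∈ Ioo s t, ∀ x ∈ U, TH g I τ x (c τ))
    (hx : x ∈ U) (hy : y ∈ U) :
    w s * Sc (g s) x ≤ Real.exp (dd (g s) U x y ^ 2 / (4 * (t - s))) * (w t * Sc (g t) y) := by
  have m := h.met (hI ⟨le_rfl, hst.le⟩)
  obtain ⟨γ, hγ, rfl, h2⟩ := P216CP.exists_minGeo_cpl m hH hc (m.ed_ne_top hU subset_rfl hx hy)
  generalize dd (g s) U (γ 0) y = L at hγ h2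
  subst h2
  obtain ⟨ε, hε, k1, k2⟩ := hγ.geo
  have p := sub_pos.2 hst
  have k3 : ∀ τ ∈ Icc s t, L / (t - s) * (τ - s) ∈ Icc 0 L := fun τ k =>
    ⟨mul_nonneg (div_nonneg hγ.nonneg p.le) (sub_nonneg.2 k.1), by
      rw [div_mul_eq_mul_div, div_le_iff₀ p]
      exact mul_le_mul_of_nonneg_left (by linarith [k.2]) hγ.nonneg⟩
  have k4 : Icc 0 L ⊆ Ioo (-ε) (L + ε) := fun r k => ⟨by linarith [k.1], by linarith [k.2]⟩
  have k5 : ∀ r ∈ Icc 0 L, DAt E3 γ r := fun r k => mdifferentiableAt_iff_target.2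
    ⟨k1.cont.continuousAt (isOpen_Ioo.mem_nhds (k4 k)),
      (k1.eqn _ r (k4 k) (mem_chart_source E3 _)).1.mdifferentiableAt⟩
  have k6 : ∀ τ, HasDerivAt (fun τ => L / (t - s) * (τ - s)) (L / (t - s)) τ := fun τ => by
    simpa using ((hasDerivAt_id' τ).sub_const s).const_mul (L / (t - s))
  have := along h hst.le hI hs hw hw' hw0 hT (γ := γ ∘ fun τ => L / (t - s) * (τ - s))
    (k1.cont.comp (by fun_prop) fun τ k => k4 (k3 τ k)) (fun τ k => k2 (k4 (k3 τ k)))
    (fun τ k => (k5 _ (k3 τ (Ioo_subset_Icc_self k))).comp τ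
      (k6 τ).differentiableAt.mdifferentiableAt) (k := (L / (t - s)) ^ 2) fun τ k => by
      have l := k3 τ (Ioo_subset_Icc_self k)
      have l2 : Icc s τ ⊆ I := (Icc_subset_Icc_right k.2.le).trans hI
      refine (P216BF.rf_anti h (k2 (k4 l)) k.1.le l2 (fun r hr => ?_) _).trans_eq ?_
      · simpa using P216BF.ricGe3 P216BF.finrank_E3 (h.met (l2 (Ioo_subset_Icc_self hr)))
          (k2 (k4 l)) (hs r ⟨hr.1, hr.2.trans k.2⟩ _ (k2 (k4 l)))
      · rw [vel_reparam (k6 τ) (k5 _ l)]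
        simp only [map_smul, smul_apply, smul_eq_mul, P216CP.minGeo_sp hγ l]
        ring
  simp only [Function.comp, sub_self, mul_zero, div_mul_cancel₀ _ p.ne'] at this
  convert this using 3
  field_simp

omit [IsManifold 𝓘(ℝ, E3) ∞ M] in
lemma nz_of_tendsto {g : Ten E3 M} {ι : Type*} {l : Filter ι} [l.NeBot] {u : ι → ℝ} {v : ℝ}
    (hu : Tendsto u l (𝓝 v)) (h : ∀ᶠ i in l, NZ g x (u i) 0 0) : NZ g x v 0 0 := fun e he w => by
  have k : Continuous fun r => zP g x r 0 0 e w := by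
    simp only [zP, zR, zm, zf, bf, dt]; fun_prop
  exact ge_of_tendsto ((k.tendsto v).comp hu) (h.mono fun i k => k e he w)

section fin

variable (h : RF g (Icc a b) U) (hH : Hs U) (hU : IsPreconnected U) (hc : Cpl (g b) U)
  (hs : ∀ t ∈ Icc a b, ∀ x ∈ U, SecGe (g t) x 0) (hK : ∀ t ∈ Icc a b, ∀ x ∈ U, Sc (g t) x ≤ K)
include h hH hU hc hs hK

/-- **the matrix Harnack inequality** for complete flows with bounded nonnegative curvature -/
theorem matrix_fin (ht : t ∈ Ioc a b) (hx : x ∈ U) : NZ (g t) x (2 * (t - a))⁻¹ 0 0 := by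
  have b0 : ∀ t ∈ Icc a b, ∀ x ∈ U, RmB (g t) 0 x K := fun t ht x hx => P216BF.rmB_mono
    (P216BF.rmB3_nonneg P216BF.finrank_E3 (h.met ht) hx (hs t ht x hx)) (hK t ht x hx)
  have hb : b ∈ Icc a b := ⟨ht.1.le.trans ht.2, le_rfl⟩
  refine nz_of_tendsto (l := 𝓝[>] a) (u := fun r => (2 * (t - r))⁻¹)
    (tendsto_nhdsWithin_of_tendsto_nhds (ContinuousAt.inv₀ (by fun_prop)
      (ne_of_gt (by linarith [ht.1])))) (eventually_of_mem (Ioo_mem_nhdsGT ht.1) fun r hr => ?_)
  have sub : Icc r b ⊆ Icc a b := Icc_subset_Icc_left hr.1.le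
  choose D hD using fun k => shi k K 1 (b - a) (r - a) one_pos (sub_pos.2 hr.1)
  have K0 := P216BF.rmB_nonneg (b0 b hb x hx)
  refine matrix (h.mono_time sub) (fun t ht => hs t (sub ht)) (exists_bar (h.mono_time sub)
    (hr.2.le.trans ht.2) hH hU hc (fun t ht => hs t (sub ht)) (by positivity)
    ((P216BF.ricB_of_rmB P216BF.finrank_E3 h.toFam b0).mono sub subset_rfl) hx) (by positivity)
    (C := max (D 0) (max (D 1) (D 2))) (fun s hs y hy k hk => P216BF.rmB_mono
      (hD k M g U y b (h.met hb) hH (hc.cpt hy 1) ?_ s (by simpa using hs) y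
        (mem_bl_self hy one_half_pos)) (by interval_cases k <;> simp)) ⟨hr.2, ht.2⟩ hx
  rw [ParB, Par, sub_sub_cancel]
  exact ⟨h.mono_set ((h.met hb).isOpen_bl _ _) bl_subset, fun s hs z hz => b0 s hs z (bl_subset hz)⟩

/-- **the trace Harnack inequality** on a finite interval -/
theorem trace_fin (ht : t ∈ Ioc a b) (hx : x ∈ U) : TH g (Icc a b) t x (t - a)⁻¹ := by
  have := th_of_nz h (iv_Icc (ht.1.trans_le ht.2)) (Ioc_subset_Icc_self ht) hx
    (matrix_fin h hH hU hc hs hK ht hx)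
  rwa [mul_inv, mul_inv_cancel_left₀ two_ne_zero] at this

/-- `(t - a) R` is nondecreasing -/
theorem mono_fin (hx : x ∈ U) : MonotoneOn (fun t => (t - a) * Sc (g t) x) (Icc a b) :=
  fun s k t l hst => by
    have sub : Ioo s t ⊆ Ioc a b := fun r m => ⟨k.1.trans_lt m.1, m.2.le.trans l.2⟩
    simpa using along h hst (Icc_subset_Icc k.1 l.2) (fun r m => hs r (Ioc_subset_Icc_self (sub m)))
      (w := fun r => r - a) (by fun_prop) (fun r m => by
        rw [inv_mul_cancel₀ (sub_pos.2 (sub m).1).ne']; exact (hasDerivAt_id' r).sub_const a)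
      (fun r m => sub_nonneg.2 (sub m).1.le) (fun r m y hy => trace_fin h hH hU hc hs hK (sub m) hy)
      (γ := fun _ => x) continuousOn_const (fun _ _ => hx) (fun _ _ => mdifferentiableAt_const)
      (k := 0) fun r m => by simp [vel_const]

/-- the integrated trace Harnack inequality on a finite interval -/
theorem harn_fin (hs' : a ≤ s) (hst : s < t) (ht : t ≤ b) (hx : x ∈ U) (hy : y ∈ U) :
    (s - a) * Sc (g s) x ≤
      Real.exp (dd (g s) U x y ^ 2 / (4 * (t - s))) * ((t - a) * Sc (g t) y) := by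
  have sub : Ioo s t ⊆ Ioc a b := fun r m => ⟨hs'.trans_lt m.1, m.2.le.trans ht⟩
  refine along_geo h hst (Icc_subset_Icc hs' ht) hH hU
    (P216BF.rf_cpl_back h (hst.le.trans ht) (Icc_subset_Icc_left hs') (fun r m y hy => ?_) hc)
    (fun r m => hs r (Ioc_subset_Icc_self (sub m))) (w := fun r => r - a) (by fun_prop)
    (fun r m => by
      rw [inv_mul_cancel₀ (sub_pos.2 (sub m).1).ne']; exact (hasDerivAt_id' r).sub_const a)
    (fun r m => sub_nonneg.2 (sub m).1.le) (fun r m y hy => trace_fin h hH hU hc hs hK (sub m) hy)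
    hx hy
  have k : r ∈ Icc a b := ⟨hs'.trans m.1.le, m.2.le⟩
  simpa using P216BF.ricGe3 P216BF.finrank_E3 (h.met k) hy (hs r k y hy)

end fin

section anc

open Vale.Agent.P216DC

variable (h : Anc g U) (hb : Bdd g U)
include h hb

/-- **the matrix Harnack inequality** for bounded ancient solutions -/
theorem matrix_anc (ht : t ≤ 0) (hx : x ∈ U) : NZ (g t) x 0 0 0 := by
  obtain ⟨C, hC⟩ := hb
  refine nz_of_tendsto (l := atBot) (u := fun r => (2 * (t - r))⁻¹)
    (((tendsto_atTop_add_const_left _ t tendsto_neg_atBot_atTop).const_mul_atTop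
      two_pos).inv_tendsto_atTop) ((eventually_lt_atBot t).mono fun r hr => ?_)
  exact matrix_fin (h.rf.mono_time Icc_subset_Iic_self) h.hs h.conn (h.cpl 0 le_rfl)
    (fun s k => h.sec s k.2) (fun s k => hC s k.2) ⟨hr, ht⟩ hx

/-- **the trace Harnack inequality** for bounded ancient solutions -/
theorem trace_anc (ht : t ≤ 0) (hx : x ∈ U) : TH g (Iic 0) t x 0 := by
  simpa using th_of_nz h.rf (iv_Iic 0) ht hx (matrix_anc h hb ht hx)

theorem mono_anc (hx : x ∈ U) : MonotoneOn (fun t => Sc (g t) x) (Iic 0) := fun s _ t l hst => by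
  simpa using along h.rf hst (fun r m => m.2.trans l) (fun r m => h.sec r (m.2.le.trans l))
    (w := fun _ => 1) (c := fun _ => 0) continuousOn_const
    (fun r m => by simpa using hasDerivAt_const r (1 : ℝ)) (fun _ _ => zero_le_one)
    (fun r m y hy => trace_anc h hb (m.2.le.trans l) hy)
    (γ := fun _ => x) continuousOn_const (fun _ _ => hx) (fun _ _ => mdifferentiableAt_const)
    (k := 0) fun r m => by simp [vel_const]

theorem harn_anc (hst : s < t) (ht : t ≤ 0) (hx : x ∈ U) (hy : y ∈ U) :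
    Sc (g s) x ≤ Real.exp (dd (g s) U x y ^ 2 / (4 * (t - s))) * Sc (g t) y := by
  simpa using along_geo h.rf hst (fun r m => m.2.trans ht) h.hs h.conn (h.cpl s (hst.le.trans ht))
    (fun r m => h.sec r (m.2.le.trans ht)) (w := fun _ => 1) (c := fun _ => 0) continuousOn_const
    (fun r m => by simpa using hasDerivAt_const r (1 : ℝ)) (fun _ _ => zero_le_one)
    (fun r m y hy => trace_anc h hb (m.2.le.trans ht) hy) hx hy

end anc

/-- **the Harnack inequality** in the form used by the block of kappa solutions -/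
theorem harn : P216DC.HARN := fun M _ _ _ g U h hb x hx => ⟨mono_anc h hb hx,
  fun y hy s t hst ht => (harn_anc h hb hst ht hx hy).trans (mul_le_mul_of_nonneg_right
    (Real.exp_le_exp.2 (div_le_div_of_nonneg_left (sq_nonneg _) (by linarith) (by linarith)))
    (by simpa using P216BF.sc_ge3 P216BF.finrank_E3 (h.rf.met ht) hy (h.sec t ht y hy)))⟩

end Vale.Agent.P216H
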