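import Vale.Agent.P216H.Opn
import Vale.Agent.P216L.Sup
import Vale.Agent.P216CP.HR
import Vale.Agent.P216MP.Vs
import Vale.Agent.P216BF.Scal
import Vale.Agent.P216BF.Ball

/-! # Harnack: a barrier function on complete manifolds with nonnegative curvature -/

open scoped Manifold ContDiff Topology ENNReal
open Set Filter

set_option maxSynthPendingDepth 3

noncomputable section

namespace Vale.Agent.P216H

open Vale.Agent.P216R Vale.Agent.P219.RG
open Vale.Agent.P210.R2.H53 (hessG lapG)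

variable {M : Type} [TopologicalSpace M] [ChartedSpace E3 M] [IsManifold 𝓘(ℝ, E3) ∞ M]

lemma trB_le {A B : Bil E3} (hA : P216BF.PD A) {c : ℝ} (h : ∀ v, B v v ≤ c * A v v) :
    trB A B ≤ 3 * c := by
  obtain ⟨e, he⟩ := hA.exists_onb
  rw [he.trB hA]
  refine (Finset.sum_le_sum fun i _ => h (e i)).trans_eq ?_
  simp [he.self]

lemma lap_above {G : E3 → Bil E3} {u : E3} (hA : P216BF.PD (G u)) {f : E3 → ℝ}
    (hf : ContDiffAt ℝ 2 f u) {c : ℝ} (hc : 0 < c) : ∃ F : E3 → ℝ, ContDiff ℝ ∞ F ∧ F u = f u ∧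
      (∀ᶠ z in 𝓝 u, f z ≤ F z) ∧ lapG G F u ≤ lapG G f u + 3 * c := by
  obtain ⟨ε, hε, h⟩ := exists_coer hA.pos
  obtain ⟨F, h1, h2, h3, h4, h5⟩ := exists_above hf (mul_pos hc hε) (Q := c • G u)
    (fun v w => by simp [hA.symm v w])
    fun v => by simpa [mul_assoc] using mul_le_mul_of_nonneg_left (h v) hc.le
  refine ⟨F, h1, h2, h5, ?_⟩
  have : hessG G F u = hessG G f u + c • G u := by
    ext v w
    simp only [hessG_apply, h3, h4, add_apply]
    ring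
  rw [lapG_eq, lapG_eq, this, trB_add]
  exact add_le_add le_rfl (trB_le hA fun v => le_rfl)

/-- a smooth function that touches the square of the distance from above -/
lemma sbar {g : Ten E3 M} {U : Set M} (hg : Met g U) (hH : Hs U) (hc : Cpl g U)
    (hU : IsPreconnected U) (hs : ∀ x ∈ U, SecGe g x 0) {x₀ x : M} (h0 : x₀ ∈ U) (hx : x ∈ U) :
    ∃ F : E3 → ℝ, ContDiff ℝ ∞ F ∧ F (pt E3 x) = dd g U x₀ x ^ 2 ∧
      (∀ᶠ z in 𝓝 (pt E3 x), dd g U x₀ ((chartAt E3 x).symm z) ^ 2 ≤ F z) ∧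
      lapG (co g x) F (pt E3 x) ≤ 24 := by
  have hA : P216BF.PD (co g x (pt E3 x)) := by rw [co_pt]; exact P216BF.met_pd hg hx
  rcases eq_or_ne x₀ x with rfl | hne
  · obtain ⟨F, h1, h2, h3, h4⟩ : ∃ F : E3 → ℝ, ContDiff ℝ ∞ F ∧ fderiv ℝ F (pt E3 x₀) = 0 ∧
        fderiv ℝ (fderiv ℝ F) (pt E3 x₀) = (8 : ℝ) • g x₀ ∧
        ∀ z, F z = 4 * g x₀ (z - pt E3 x₀) (z - pt E3 x₀) := by
      have hd : ∀ z, HasFDerivAt (fun z => 4 * g x₀ (z - pt E3 x₀) (z - pt E3 x₀))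
          (((8 : ℝ) • g x₀) (z - pt E3 x₀)) z := fun z => by
        have k : HasFDerivAt (fun z => z - pt E3 x₀) (ContinuousLinearMap.id ℝ E3) z :=
          (hasFDerivAt_id z).sub_const _
        refine ((((g x₀).hasFDerivAt.comp z k).clm_apply k).const_mul 4).congr_fderiv ?_
        ext v
        simp [hg.symm x₀ hx v]
        ring
      have e1 := funext fun z => (hd z).fderiv
      refine ⟨_, by fun_prop, by rw [e1]; simp, ?_, fun _ => rfl⟩
      rw [show fderiv ℝ (fun z => 4 * g x₀ (z - pt E3 x₀) (z - pt E3 x₀)) = _ from e1]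
      exact (((8 : ℝ) • g x₀).hasFDerivAt.comp (pt E3 x₀)
        ((hasFDerivAt_id _).sub_const (pt E3 x₀))).fderiv
    refine ⟨F, h1, by simp [h4, dd_self], ?_, ?_⟩
    · filter_upwards [((Continuous.prodMk_left (pt E3 x₀)).tendsto (pt E3 x₀)).eventually
        (hg.ed_le_chart hx one_pos)] with z hz
      have k := hg.nonneg hx (z - pt E3 x₀)
      rw [symm_pt, ed_comm] at hz
      have k2 : dd g U x₀ ((chartAt E3 x₀).symm z) ≤ _ :=
        ENNReal.toReal_le_of_le_ofReal (by positivity) hz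
      rw [h4]
      refine (pow_le_pow_left₀ dd_nonneg k2 2).trans_eq ?_
      rw [mul_pow, Real.sq_sqrt k]
      norm_num
    · rw [lapG_eq]
      refine (trB_le hA (c := 8) fun v => ?_).trans_eq (by norm_num)
      simp [hessG_apply, h2, h3, co_pt]
  have hf := hg.ed_ne_top hU subset_rfl h0 hx
  obtain ⟨γ, hγ, rfl, h2⟩ := P216CP.exists_minGeo_cpl hg hH hc hf
  have hL := hg.dd_pos hH hf hne
  generalize dd g U (γ 0) x = L at hγ h2 hL
  subst h2
  obtain ⟨ε, hε, k1, k2⟩ := hγ.geo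
  have hsub : Icc 0 L ⊆ Ioo (-ε) (L + ε) := fun s hs => ⟨by linarith [hs.1], by linarith [hs.2]⟩
  obtain ⟨f, a1, a2, a3, a4, a5, -, a6, -⟩ := P216L.support' (hg.fam univ) convex_univ
    uniqueDiffOn_univ (mem_univ 0) hL isOpen_Ioo hsub k1 k2 hγ.unit (α := fun s => s / L)
    (by fun_prop) (by simp) (div_self hL.ne')
  have sa : P216MP.SA E3 (f 0) (γ L) := a1.contDiffAt (mem_univ _)
  have b1 : lap g (f 0) (γ L) ≤ 3 * L⁻¹ := by
    rw [lap_eq]
    refine trB_le (P216BF.met_pd hg hx) fun v => (a6 (fun _ => 0) continuousOn_const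
      (fun s hs => hs.elim fun _ _ => ‹∀ x ∈ U, SecGe g x 0› _ (k2 (hsub hs))) v).trans ?_
    have : ∫ s in (0 : ℝ)..L, (deriv (fun s : ℝ => s / L) s ^ 2 - 0 * (s / L) ^ 2) = L⁻¹ := by
      simp only [deriv_div_const, deriv_id'', zero_mul, sub_zero, intervalIntegral.integral_const,
        smul_eq_mul]
      field_simp
    rw [this, mul_comm]
    exact mul_le_mul_of_nonneg_left (sub_le_self _ (sq_nonneg _)) (inv_pos.2 hL).le
  have b2 : gam g (f 0) (f 0) (γ L) = 1 := by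
    rw [P216BF.gam_eq hg hx, a5]
    exact Real.sqrt_eq_one.1 (hγ.unit L ⟨hL.le, le_rfl⟩)
  have b3 := P216MP.lap_comp (g := g) (η := fun s => s ^ 2) (η1 := fun s => 2 * s) (η2 := 2) sa
    (.of_forall fun s => by simpa using hasDerivAt_pow 2 s)
    (by simpa using (hasDerivAt_id _).const_mul (2 : ℝ))
  obtain ⟨F, c1, c2, c3, c4⟩ := lap_above hA (f := rd E3 (fun y => f 0 y ^ 2) (γ L))
    ((sa.comp (η := fun s => s ^ 2) (by fun_prop)).of_le (by norm_cast)) one_pos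
  refine ⟨F, c1, by rw [c2, rd_pt, a2], ?_, c4.trans ?_⟩
  · filter_upwards [c3, P216MP.ev_rd (E := E3) a4] with z k l
    exact (pow_le_pow_left₀ dd_nonneg
      (ENNReal.toReal_le_of_le_ofReal (a3 _ _) (l 0 (mem_univ _))) 2).trans k
  · change lap g (fun y => f 0 y ^ 2) (γ L) + _ ≤ _
    rw [b3, b2, a2]
    have := mul_le_mul_of_nonneg_left b1 hL.le
    rw [mul_left_comm, mul_inv_cancel₀ hL.ne'] at this
    linarith

/-- a proper function with upper barriers -/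
structure Bar (g : ℝ → Ten E3 M) (a b : ℝ) (U : Set M) (ρ : ℝ → M → ℝ) (B : ℝ) : Prop where
  one : ∀ t x, 1 ≤ ρ t x
  cont : ContinuousOn (fun q : ℝ × M => ρ q.1 q.2) (Icc a b ×ˢ U)
  cpt : ∀ L, ∃ K, IsCompact K ∧ K ⊆ U ∧ ∀ t ∈ Icc a b, ∀ x ∈ U, ρ t x ≤ L → x ∈ K
  sup : ∀ t ∈ Icc a b, ∀ x ∈ U, ∃ (F : ℝ × E3 → ℝ) (d : ℝ), ContDiff ℝ ∞ F ∧
    F (t, pt E3 x) = ρ t x ∧ HasDerivAt (fun s => F (s, pt E3 x)) d t ∧
    (∀ᶠ z in 𝓝 (pt E3 x), ∀ s ∈ Icc a t, ρ s ((chartAt E3 x).symm z) ≤ F (s, z)) ∧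
    -B * ρ t x ≤ d - lapG (co (g t) x) (fun z => F (t, z)) (pt E3 x)

variable {g : ℝ → Ten E3 M} {a b K : ℝ} {U : Set M}

lemma dd_le_exp (h : RF g (Icc a b) U) (hU : IsPreconnected U) (hK : P216BF.RicB g (Icc a b) U K)
    {s t : ℝ} (hs : s ∈ Icc a b) (ht : t ∈ Icc a b) {x y : M} (hx : x ∈ U) (hy : y ∈ U) :
    dd (g s) U x y ≤ Real.exp (K * |s - t|) * dd (g t) U x y :=
  dd_le_mul (Real.exp_pos _) (P216BF.rf_sq h hK hs ht)
    ((h.met ht).ed_ne_top hU subset_rfl hx hy)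

lemma dd_cont (h : RF g (Icc a b) U) (hU : IsPreconnected U) (hK : P216BF.RicB g (Icc a b) U K)
    {x₀ : M} (h0 : x₀ ∈ U) :
    ContinuousOn (fun q : ℝ × M => dd (g q.1) U x₀ q.2) (Icc a b ×ˢ U) := by
  rintro ⟨t, x⟩ ⟨ht, hx⟩
  have h1 : ContinuousAt (fun q : ℝ × M => dd (g t) U x₀ q.2) (t, x) :=
    ContinuousAt.comp (g := dd (g t) U x₀)
      ((h.met ht).continuousAt_dd_right ((h.met ht).ed_ne_top hU subset_rfl h0 hx)) continuousAt_snd
  have h2 : ∀ c : ℝ, Tendsto (fun q : ℝ × M => Real.exp (c * |q.1 - t|) * dd (g t) U x₀ q.2)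
      (𝓝[Icc a b ×ˢ U] (t, x)) (𝓝 (dd (g t) U x₀ x)) := fun c => by
    have : ContinuousAt (fun q : ℝ × M => Real.exp (c * |q.1 - t|)) (t, x) := by fun_prop
    simpa using (this.fun_mul h1).continuousWithinAt.tendsto
  refine tendsto_of_tendsto_of_tendsto_of_le_of_le' (h2 (-K)) (h2 K)
    (eventually_mem_nhdsWithin.mono fun q hq => ?_)
    (eventually_mem_nhdsWithin.mono fun q hq => dd_le_exp h hU hK hq.1 ht h0 hq.2)
  have := dd_le_exp h hU hK ht hq.1 h0 hq.2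
  rw [neg_mul, Real.exp_neg, inv_mul_le_iff₀ (Real.exp_pos _), abs_sub_comm]
  exact this

theorem exists_bar (h : RF g (Icc a b) U) (hab : a ≤ b) (hH : Hs U) (hU : IsPreconnected U)
    (hc : Cpl (g b) U) (hs : ∀ t ∈ Icc a b, ∀ x ∈ U, SecGe (g t) x 0) (h0 : 0 ≤ K)
    (hK : P216BF.RicB g (Icc a b) U K) {x₀ : M} (hx₀ : x₀ ∈ U) :
    Bar g a b U (fun t x => 1 + dd (g t) U x₀ x ^ 2) (2 * K + 24) := by
  have hb : b ∈ Icc a b := ⟨hab, le_rfl⟩
  refine ⟨fun t x => le_add_of_nonneg_right (sq_nonneg _),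
    continuousOn_const.add ((dd_cont h hU hK hx₀).pow 2), fun L => ?_, fun t ht x hx => ?_⟩
  · refine ⟨_, hc x₀ hx₀ (Real.exp (K * (b - a)) * √L), cbl_subset, fun t ht x hx hL => ?_⟩
    refine (mem_cbl_iff (by positivity)).2 ⟨(h.met hb).ed_ne_top hU subset_rfl hx₀ hx, ?_⟩
    refine (dd_le_exp h hU hK hb ht hx₀ hx).trans (mul_le_mul ?_
      (Real.le_sqrt_of_sq_le (by linarith)) dd_nonneg (Real.exp_pos _).le)
    rw [abs_of_nonneg (sub_nonneg.2 ht.2)]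
    exact Real.exp_le_exp.2 (mul_le_mul_of_nonneg_left (by linarith [ht.1]) h0)
  obtain ⟨F, h1, h2, h3, h4⟩ := sbar (h.met ht) hH (P216BF.rf_cpl h hK ht hb hc) hU (hs t ht) hx₀ hx
  refine ⟨fun q => 1 + Real.exp (K * (t - q.1)) ^ 2 * F q.2, -(2 * K) * F (pt E3 x), by fun_prop,
    by simp [h2], ?_, ?_, ?_⟩
  · refine ((((((hasDerivAt_id' t).const_sub t).const_mul K).exp.fun_pow 2).mul_const
      (F (pt E3 x))).const_add 1).congr_deriv ?_
    simp
  · filter_upwards [h3, (isOpen_dom x h.isOpen).eventually_mem (pt_mem_dom (E := E3) hx)]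
      with z k1 k2 s hs
    have k3 := dd_le_exp h hU hK ⟨hs.1, hs.2.trans ht.2⟩ ht hx₀ k2.2
    rw [abs_sub_comm, abs_of_nonneg (sub_nonneg.2 hs.2)] at k3
    have k4 := pow_le_pow_left₀ dd_nonneg k3 2
    rw [mul_pow] at k4
    linarith [mul_le_mul_of_nonneg_left k1 (sq_nonneg (Real.exp (K * (t - s))))]
  · have : lapG (co (g t) x) (fun z => 1 + Real.exp (K * (t - t)) ^ 2 * F z) (pt E3 x) =
        lapG (co (g t) x) F (pt E3 x) := by
      simp only [sub_self, mul_zero, Real.exp_zero, one_pow, one_mul, lapG_eq]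
      congr 1
      ext v w
      have e : fderiv ℝ (fun z => 1 + F z) = fderiv ℝ F := funext fun z => fderiv_const_add 1
      simp only [hessG_apply, e]
    rw [this, h2]
    nlinarith [sq_nonneg (dd (g t) U x₀ x)]

end Vale.Agent.P216H
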