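import Vale.Agent.P216H.Trace
import Vale.Agent.P216FA.Plan

/-! # Harnack: the form used by the local theory -/

open Set

namespace Vale.Agent.P216H

theorem fharn : P216FA.FHARN := fun _ _ _ _ _ _ h hK _ hx s hs t ht hst =>
  have k := (hK _ ⟨hs.1.trans hs.2, le_rfl⟩).1
  mono_fin h k.hs k.con k.cpl (fun t ht => (hK t ht).1.sec) (fun t ht => (hK t ht).2) hx hs ht hst

end Vale.Agent.P216H
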