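import Vale.Agent.P216H.Zr

/-! # Harnack: the matrix Harnack inequality of Hamilton -/

open scoped Manifold ContDiff Topology
open Set Filter

set_option maxSynthPendingDepth 3
set_option linter.unusedSimpArgs false

noncomputable section

namespace Vale.Agent.P216H

open Vale.Agent.P216R Vale.Agent.P216D Vale.Agent.P216D.Loc
open Vale.Agent.P210.R2.H53 (lapG)

section ring

variable {L : Loc} (h : P216R.RF L.g L.I L.U) (p : L.O)

lemma ev_mk' (k : ℕ) (w : Fin k → Fin 3) (c d : Fin 3) :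
    ev p (L.fr.Dw (List.ofFn w) (L.fr.M c d)) =
      mk (fun k => Rm (L.g (t p)) k (x p)) (e p) k w c d :=
  (ev_Dw_M p k w c d).trans (Rm_model _ _ k _).symm

lemma ev_zf (u : L.A) (W y : Fin 3 → ℝ) :
    zf (mp (ev p) (HH (rf h) u)) (mp (ev p) (rf h).T) (mp (ev p) (rf h).M) W y =
      zR (fun k => Rm (L.g (t p)) k (x p)) (e p) (ev p u) W y := by
  rw [zf_mp, zR]
  congr 1
  · funext c d; exact ev_mk' p 0 ![] c d
  · funext a c d; exact ev_mk' p 1 ![a] c d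
  · funext a b c d; exact ev_mk' p 2 ![a, b] c d

variable (L) in
/-- a function of the time -/
def sct (u : ℝ → ℝ) (hu : ContDiffOn ℝ ∞ u L.I) : L.A :=
  L.sc (fun q => u q.1) (hu.comp contDiffOn_fst fun _ h => h.1)

lemma ev_sct {u : ℝ → ℝ} (hu : ContDiffOn ℝ ∞ u L.I) : ev p (sct L u hu) = u (t p) := rfl

lemma D_sct {u : ℝ → ℝ} (hu : ContDiffOn ℝ ∞ u L.I) (a : Fin 3) : L.fr.D a (sct L u hu) = 0 :=
  Sm.ext fun q => by rw [sct, ev_D_sc]; simp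

lemma ev_Dt_of {F : ℝ × E3 → ℝ} (hF : ContDiffOn ℝ ∞ F L.W) {d : ℝ}
    (hd : HasDerivAt (fun s => F (s, x p)) d (t p)) : ev p (L.fl.Dt (L.sc F hF)) = d :=
  (L.iv.ud _ (t_mem p)).eq_deriv _ (has_Dt_sc hF p) hd.hasDerivWithinAt

include h in
/-- the step at the first null vector in a chart -/
lemma step (hI : L.I ∈ 𝓝[<] t p) {u ψ β : ℝ → ℝ} (su : ContDiffOn ℝ ∞ u L.I)
    (sψ : ContDiffOn ℝ ∞ ψ L.I) (sβ : ContDiffOn ℝ ∞ β L.I)
    (du : ∀ s ∈ L.I, HasDerivAt u (-2 * u s * u s) s) {ψ' β' d C : ℝ}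
    (dψ : HasDerivAt ψ ψ' (t p)) (dβ : HasDerivAt β β' (t p)) {F : ℝ × E3 → ℝ}
    (hF : ContDiff ℝ ∞ F) (hd : HasDerivAt (fun s => F (s, x p)) d (t p)) (hu : 0 ≤ u (t p))
    (hα : 0 ≤ β (t p) * F (t p, x p)) (hψ : 0 ≤ ψ (t p))
    (hC : ∀ k ≤ 2, RmB (L.g (t p)) k (x p) C)
    (hN : ∀ᶠ b in 𝓝[L.W] (t p, x p), b.1 ≤ t p → NZ (L.g b.1) b.2 (u b.1) (β b.1 * F b) (ψ b.1))
    {w : (Fin 3 → ℝ) × (Fin 3 → ℝ)} (hw : w ≠ 0)
    (h0 : zP (L.g (t p)) (x p) (u (t p)) (β (t p) * F (t p, x p)) (ψ (t p)) (e p) w ≤ 0)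
    {D : ℝ} (hD : D = 8 * C ^ 2 + 4 * C)
    (h1 : ψ (t p) * (18 * D + 24 * D * u (t p) + 18 * (2 * D + u (t p)) ^ 2) +
      β (t p) * F (t p, x p) * (12 * D + 4 * ψ (t p)) <
      β (t p) * (d - lapG (L.g (t p)) (fun z => F (t p, z)) (x p)) + F (t p, x p) * β' +
        4 * u (t p) * (β (t p) * F (t p, x p)))
    (h2 : ψ (t p) * (18 * D + 2 * ψ (t p)) < ψ') : False := by
  have b0 := P216BF.rmB_nonneg (hC 0 (by simp))
  have b1 : ∀ k ≤ 2, ∀ w c d, |ev p (L.fr.Dw (List.ofFn (n := k) w) (L.fr.M c d))| ≤ C :=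
    fun k hk w c d => by rw [ev_mk']; exact abs_mk (on_g p) (hC k hk) _ _ _
  have b2 := (tendsto_base p).eventually hN
  have b3 := b2.self_of_nhds le_rfl (e p) (on_g p)
  have sx : ∀ a, ContDiffOn ℝ ∞ (fun q : ℝ × E3 => L.g (t p) (x p) (e p a) (q.2 - x p)) L.W :=
    fun a => by fun_prop
  refine point2 (rf h) (ev p) (u := sct L u su) (α := sct L β sβ * L.sc F hF.contDiffOn)
    (ψ := sct L ψ sψ) (D_sct su) (Sm.ext fun q => ?_) (D_sct sψ) (x := fun a => L.sc _ (sx a))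
    (fun a => by simp) (fun a b => ?_) (C := D) hu hα hψ (fun a b => ?_) (fun a b => ?_)
    (fun a b => ?_) (W := w.1) (y := w.2) (by contrapose! hw; exact Prod.ext hw.1 hw.2)
    (fun W y => ?_) ?_ (fun z hz => ?_) ?_ ?_
  · exact (ev_Dt_of q _ (du _ (t_mem q))).trans (by simp only [map_mul, map_neg, map_ofNat, ev_sct])
  · refine (ev_D_sc (sx a) p b).trans ?_
    exact (congrArg (fun l => l (e p b)) ((L.g (t p) (x p) (e p a)).hasFDerivAt.comp (x p)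
      ((hasFDerivAt_id (x p)).sub_const (x p))).fderiv).trans (on_g p a b)
  · exact (b1 0 (by simp) ![] a b).trans (by nlinarith)
  · refine (congrArg abs (congrFun₂ (mp_T (rf h) (ev p)) a b)).trans_le ?_
    exact (abs_tp (fun q => b1 1 (by simp) ![q]) a b).trans (by nlinarith)
  · refine (congrArg abs (congrFun₂ (mp_H0 (rf h) (ev p)) a b)).trans_le ?_
    exact hD ▸ abs_hp (b1 0 (by simp) ![]) (fun q r => b1 2 le_rfl ![q, r]) a b
  · rw [ev_zf]; exact b3 (W, y)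
  · rw [ev_zf]; exact h0.antisymm (b3 w)
  · have k : ∀ q : L.O, ev q (zf (HH (rf h) (sct L u su)) (rf h).T (rf h).M
        (fun i => algebraMap ℝ L.A (w.1 i)) z + sct L β sβ * L.sc F hF.contDiffOn *
        dt (fun i => algebraMap ℝ L.A (w.1 i)) (fun i => algebraMap ℝ L.A (w.1 i)) +
        sct L ψ sψ * dt z z) = zP (L.g (t q)) (x q) (u (t q)) (β (t q) * F (t q, x q)) (ψ (t q))
          (e q) (w.1, fun i => ev q (z i)) := fun q => by
      rw [zP, ← ev_sct q su, ← ev_zf h]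
      simp only [zf, map_add, map_mul, map_ofNat, map_bf, map_dt, AlgHom.commutes,
        Algebra.algebraMap_self, RingHom.id_apply, ev_sct, ev_sc]
    have k1 := b2.mono fun q hq (l : t q ≤ t p) => (k p).trans_le (le_trans (by
      simpa only [hz] using h0) ((hq l (e q) (on_g q) _).trans_eq (k q).symm))
    rw [box_eq, map_sub, sub_nonpos]
    exact (min_time hI (k1.mono fun q hq l => hq l.le)).trans
      (min_lap (k1.mono fun q hq l => hq l.le))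
  · rw [box_mul, box_eq, box]
    simp only [rf_toFl, fl_toFr, D_sct, map_zero, map_add, map_sub, map_mul, zero_mul, ev_sct,
      ev_sc, ev_Lap_sc, ev_Dt_of p _ hd, Finset.sum_const_zero, add_zero, mul_zero, sub_zero]
    rw [show ev p (L.fl.Dt (sct L β sβ)) = β' from ev_Dt_of p _ dβ]
    exact h1
  · exact h2.trans_eq (ev_Dt_of p _ dψ).symm

end ring

variable {M : Type} [TopologicalSpace M] [ChartedSpace E3 M] [IsManifold 𝓘(ℝ, E3) ∞ M]
  {g : ℝ → Ten E3 M} {a b B C : ℝ} {U : Set M} {ρ : ℝ → M → ℝ}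

lemma num_le {D T u : ℝ} (hD : 0 ≤ D) (hu : 0 ≤ u) (h : 1 ≤ T * u) :
    18 * D + 24 * D * u + 18 * (2 * D + u) ^ 2 ≤
      (18 * D * T ^ 2 + 24 * D * T + 18 * (2 * D * T + 1) ^ 2) * u ^ 2 := by
  have h1 : D ≤ D * (T * u) := le_mul_of_one_le_right hD h
  have h2 : D ≤ D * (T * u) ^ 2 := le_mul_of_one_le_right hD (one_le_pow₀ h)
  have h3 := pow_le_pow_left₀ (by positivity) (show 2 * D + u ≤ 2 * (D * (T * u)) + u by linarith) 2
  linarith [mul_le_mul_of_nonneg_right h1 hu]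

/-- the perturbed form stays positive -/
lemma pz_all (h : RF g (Icc a b) U) (hs : ∀ t ∈ Icc a b, ∀ x ∈ U, SecGe (g t) x 0)
    (hρ : Bar g a b U ρ B) (hB : 0 ≤ B) (hC : ∀ t ∈ Icc a b, ∀ x ∈ U, ∀ k ≤ 2, RmB (g t) k x C)
    (h0 : 0 ≤ C) : ∃ l A : ℝ, ∀ δ ∈ Ioc (0 : ℝ) 1, ∀ t ∈ Ioc a b, ∀ x ∈ U,
      PZ (g t) x (2 * (t - a))⁻¹ (l * (2 * (t - a))⁻¹ * (δ * Real.exp (A * (t - b))) * ρ t x)
        (δ * Real.exp (A * (t - b))) := by
  obtain ⟨D, hD⟩ : ∃ D, D = 8 * C ^ 2 + 4 * C := ⟨_, rfl⟩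
  have d0 : 0 ≤ D := by rw [hD]; positivity
  obtain ⟨T, hT⟩ : ∃ T, T = 2 * (b - a) := ⟨_, rfl⟩
  obtain ⟨l, hl⟩ : ∃ l, l = 18 * D * T ^ 2 + 24 * D * T + 18 * (2 * D * T + 1) ^ 2 := ⟨_, rfl⟩
  obtain ⟨A, hA⟩ : ∃ A, A = B + 18 * D + 5 := ⟨_, rfl⟩
  refine ⟨l, A, fun δ hδ t₁ ht₁ x₁ hx₁ => by_contra fun hbad => ?_⟩
  have hab : a < b := ht₁.1.trans_le ht₁.2
  have T0 : 0 < T := by linarith
  have l0 : 0 < l := by rw [hl]; positivity
  have A0 : 0 ≤ A := by rw [hA]; positivity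
  set u : ℝ → ℝ := fun s => (2 * (s - a))⁻¹ with hu
  set ψ : ℝ → ℝ := fun s => δ * Real.exp (A * (s - b)) with hψ
  have u0 : ∀ s ∈ Ioc a b, 0 < u s := fun s k => inv_pos.2 (by linarith [k.1])
  have u1 : ∀ s ∈ Ioc a b, 1 ≤ T * u s := fun s k =>
    (one_le_div (by linarith [k.1])).2 (by linarith [k.2])
  have su : ContDiffOn ℝ ∞ u (Ioc a b) :=
    ContDiffOn.inv (by fun_prop) fun s k => ne_of_gt (by linarith [k.1])
  have du : ∀ s ∈ Ioc a b, HasDerivAt u (-2 * u s * u s) s := fun s k =>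
    ((((hasDerivAt_id' s).sub_const a).const_mul 2).fun_inv
      (ne_of_gt (by linarith [k.1]))).congr_deriv (by rw [hu, sq, div_mul_eq_div_div]; ring)
  have p0 : ∀ s, 0 < ψ s := fun s => mul_pos hδ.1 (Real.exp_pos _)
  have p1 : ∀ s ≤ b, ψ s ≤ 1 := fun s k => mul_le_one₀ hδ.2 (Real.exp_pos _).le
    (Real.exp_le_one_iff.2 (mul_nonpos_of_nonneg_of_nonpos A0 (by linarith)))
  have p2 : ∀ s, a ≤ s → ψ a ≤ ψ s := fun s k => mul_le_mul_of_nonneg_left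
    (Real.exp_le_exp.2 (mul_le_mul_of_nonneg_left (by linarith) A0)) hδ.1.le
  have sψ : ContDiffOn ℝ ∞ ψ (Ioc a b) := by rw [hψ]; fun_prop
  have dψ : ∀ s, HasDerivAt ψ (A * ψ s) s := fun s =>
    ((((hasDerivAt_id' s).sub_const b).const_mul A).exp.const_mul δ).congr_deriv
      (by rw [hψ]; ring)
  have sβ : ContDiffOn ℝ ∞ (fun s => l * u s * ψ s) (Ioc a b) := (contDiffOn_const.mul su).mul sψ
  have b0 : ∀ s ∈ Ioc a b, 0 < l * u s * ψ s := fun s k => mul_pos (mul_pos l0 (u0 s k)) (p0 s)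
  have hI := h.mono_time Ioc_subset_Icc_self
  have cα : ContinuousOn (fun q : ℝ × M => l * u q.1 * ψ q.1 * ρ q.1 q.2) (Ioc a b ×ˢ U) :=
    (sβ.continuousOn.comp continuousOn_fst fun _ k => k.1).mul
      (hρ.cont.mono (prod_mono Ioc_subset_Icc_self subset_rfl))
  obtain ⟨N, hN, N0⟩ : ∃ N, l * ψ a ^ 2 * N = 3 * D + 18 * D ^ 2 + 1 ∧ 0 < N :=
    ⟨_, mul_div_cancel₀ _ (by have := p0 a; positivity), by have := p0 a; positivity⟩
  obtain ⟨K, k1, k2, k3⟩ := hρ.cpt (T * N)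
  have bad : ∀ s ∈ Ioc a b, ∀ y ∈ U, ¬PZ (g s) y (u s) (l * u s * ψ s * ρ s y) (ψ s) →
      (s, y) ∈ Icc (a + (2 * N)⁻¹) b ×ˢ K := fun s k y hy hn => by
    have k' := Ioc_subset_Icc_self k
    have e1 : u s * ρ s y ≤ N := le_of_not_gt fun e => hn (pz_crude (h.met k') hy (hs s k' y hy)
      (hC s k' y hy) (u0 s k).le (p0 s) (by
        have e2 := mul_le_mul (pow_le_pow_left₀ (p0 a).le (p2 s k.1.le) 2) e.le N0.le (sq_nonneg _)
        rw [← hD]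
        nlinarith [mul_le_mul_of_nonneg_left e2 l0.le, mul_le_mul_of_nonneg_left (p1 s k.2) d0]))
    have e2 := hρ.one s y
    refine ⟨⟨?_, k.2⟩, k3 s k' y hy (by nlinarith [u1 s k])⟩
    have e3 : (2 * (s - a))⁻¹ ≤ N := (le_mul_of_one_le_right (u0 s k).le e2).trans e1
    rw [inv_le_comm₀ (by linarith [k.1]) N0] at e3
    rw [mul_inv]
    linarith
  have sub : Icc (a + (2 * N)⁻¹) b ×ˢ K ⊆ Ioc a b ×ˢ U := fun q k =>
    ⟨⟨(lt_add_of_pos_right a (by positivity)).trans_le k.1.1, k.1.2⟩, k2 k.2⟩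
  obtain ⟨⟨t, x⟩, q1, q2, q3⟩ := first_bad (isCompact_Icc.prod k1) continuousOn_fst
    (P := fun q => PZ (g q.1) q.2 (u q.1) (l * u q.1 * ψ q.1 * ρ q.1 q.2) (ψ q.1))
    (fun q k k' => (pz_open hI.toFam su.continuousOn sψ.continuousOn cα (sub k) k').filter_mono
      (nhdsWithin_mono _ sub)) ⟨_, bad t₁ ht₁ x₁ hx₁ hbad, hbad⟩
  obtain ⟨ht : t ∈ Ioc a b, hx : x ∈ U⟩ := sub q1
  have ht' := Ioc_subset_Icc_self ht
  have sub2 : Ioo a t ⊆ Ioc a b := fun s k => ⟨k.1, k.2.le.trans ht.2⟩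
  have n1 : ∀ s ∈ Ioo a t, ∀ y ∈ U, NZ (g s) y (u s) (l * u s * ψ s * ρ s y) (ψ s) :=
    fun s k y hy => PZ.nz (by_contra fun hn => hn (q3 _ (bad s (sub2 k) y hy hn) k.2))
  have n2 : ∀ s ∈ Ioc a t, ∀ y ∈ U, NZ (g s) y (u s) (l * u s * ψ s * ρ s y) (ψ s) :=
    fun s k y hy => by
    rcases k.2.eq_or_lt with rfl | k'
    · have := right_nhdsWithin_Ioo_neBot ht.1
      exact nz_lim hI.toFam (α := fun s => l * u s * ψ s * ρ s y) sub2 ht
        ((su.continuousOn _ ht).mono sub2) (ContinuousWithinAt.comp (f := fun s => (s, y))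
          (cα _ ⟨ht, hy⟩) (by fun_prop) fun _ k => ⟨sub2 k, hy⟩) ((sψ.continuousOn _ ht).mono sub2)
        hy (eventually_mem_nhdsWithin.mono fun s k => n1 s k y hy)
    · exact n1 s ⟨k.1, k'⟩ y hy
  have li := li_chart (h.met ht') hx (mem_chart_source E3 x)
  rw [li_PZ li] at q2
  simp only [PZ, not_forall, not_lt] at q2
  obtain ⟨e, he, w, hw, q2⟩ := q2
  obtain ⟨F, d, f1, f2, f3, f4, f5⟩ := hρ.sup t ht' x hx
  have e2 := hρ.one t x
  rw [← f2] at q2 f5 e2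
  refine step (L := loc (hI.co x).toFam (iv_Ioc hab)) (hI.co x) (mkF ht (pt_mem_dom hx) he)
    (mem_of_superset (Ioo_mem_nhdsLT ht.1) sub2) su sψ sβ du (dψ t)
    (((du t ht).const_mul l).fun_mul (dψ t)) f1 f3 (u0 t ht).le
    (mul_nonneg (b0 t ht).le (zero_le_one.trans e2)) (p0 t).le
    (fun k hk => (li.RmB k C).1 (hC t ht' x hx k hk)) ?_ hw q2 hD ?_ ?_
  · filter_upwards [self_mem_nhdsWithin, mem_nhdsWithin_of_mem_nhds
      (continuousAt_snd.eventually f4)] with q k k' k''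
    exact (li_NZ (li_comap (hI.met k.1) (ld_symm x) k.2.1 k.2.2)).2 ((n2 _ ⟨k.1.1, k''⟩ _ k.2.2).mono
      (mul_le_mul_of_nonneg_left (k' _ ⟨k.1.1.le, k''⟩) (b0 _ k.1).le))
  · change ψ t * (18 * D + 24 * D * u t + 18 * (2 * D + u t) ^ 2) +
      l * u t * ψ t * F (t, pt E3 x) * (12 * D + 4 * ψ t) < l * u t * ψ t *
        (d - lapG (co (g t) x) (fun z => F (t, z)) (pt E3 x)) + F (t, pt E3 x) *
        (l * (-2 * u t * u t) * ψ t + l * u t * (A * ψ t)) + 4 * u t *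
        (l * u t * ψ t * F (t, pt E3 x))
    have e3 := mul_le_mul_of_nonneg_left (num_le d0 (u0 t ht).le (u1 t ht)) (p0 t).le
    have e4 := mul_le_mul_of_nonneg_left f5 (b0 t ht).le
    have e5 := mul_pos (b0 t ht) (one_pos.trans_le e2)
    have e6 := mul_le_mul_of_nonneg_left e2 (mul_pos (b0 t ht) (u0 t ht)).le
    have e7 := mul_le_mul_of_nonneg_left (p1 t ht.2) e5.le
    rw [← hl] at e3
    rw [hA]
    linarith [mul_pos e5 (u0 t ht), mul_nonneg e5.le d0]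
  · change ψ t * (18 * D + 2 * ψ t) < A * ψ t
    nlinarith [p0 t, p1 t ht.2, mul_nonneg hB (p0 t).le]

/-- **the matrix Harnack inequality** -/
theorem matrix (h : RF g (Icc a b) U) (hs : ∀ t ∈ Icc a b, ∀ x ∈ U, SecGe (g t) x 0)
    (hρ : Bar g a b U ρ B) (hB : 0 ≤ B) (hC : ∀ t ∈ Icc a b, ∀ x ∈ U, ∀ k ≤ 2, RmB (g t) k x C)
    {t : ℝ} (ht : t ∈ Ioc a b) {x : M} (hx : x ∈ U) : NZ (g t) x (2 * (t - a))⁻¹ 0 0 := by
  obtain ⟨l, A, k⟩ := pz_all h hs hρ hB hC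
    (P216BF.rmB_nonneg (hC t (Ioc_subset_Icc_self ht) x hx 0 (by simp)))
  intro e he w
  have k1 : Tendsto (fun δ : ℝ => zP (g t) x (2 * (t - a))⁻¹ (l * (2 * (t - a))⁻¹ *
      (δ * Real.exp (A * (t - b))) * ρ t x) (δ * Real.exp (A * (t - b))) e w) (𝓝[>] 0)
      (𝓝 (zP (g t) x (2 * (t - a))⁻¹ 0 0 e w)) :=
    tendsto_nhdsWithin_of_tendsto_nhds (Continuous.tendsto' (by simp only [zP]; fun_prop) _ _
      (by simp))
  exact ge_of_tendsto k1 (eventually_of_mem (Ioc_mem_nhdsGT one_pos) fun δ hδ =>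
    (k δ hδ t ht x hx).nz e he w)

end Vale.Agent.P216H
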