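import Vale.Agent.P216D.Alg

/-! # Harnack: first order identities in the frame ring of a Ricci flow -/

set_option linter.unusedSimpArgs false

namespace Vale.Agent.P216H

open Vale.Agent.P216D Vale.Agent.P216D.Fr

variable {A : Type*} [CommRing A] [Algebra ℝ A]

lemma two_cancel {x y : A} (h : 2 * x = 2 * y) : x = y := by
  have h1 : (algebraMap ℝ A (1 / 2)) * 2 = 1 := by
    rw [show (2 : A) = algebraMap ℝ A 2 from (map_ofNat _ 2).symm, ← map_mul]; norm_num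
  linear_combination (algebraMap ℝ A (1 / 2)) * h - (x - y) * h1

variable (c : RF A)

lemma K00 : c.K 0 0 = c.M 1 1 + c.M 2 2 := by simp [c.ric, Ric, S]; ring
lemma K11 : c.K 1 1 = c.M 0 0 + c.M 2 2 := by simp [c.ric, Ric, S]; ring
lemma K22 : c.K 2 2 = c.M 0 0 + c.M 1 1 := by simp [c.ric, Ric, S]
lemma K01 : c.K 0 1 = -c.M 0 1 := by simp [c.ric, Ric]
lemma K02 : c.K 0 2 = -c.M 0 2 := by simp [c.ric, Ric]
lemma K12 : c.K 1 2 = -c.M 1 2 := by simp [c.ric, Ric]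
lemma K10 : c.K 1 0 = -c.M 0 1 := by simp [c.ric, Ric, M10]
lemma K20 : c.K 2 0 = -c.M 0 2 := by simp [c.ric, Ric, M20]
lemma K21 : c.K 2 1 = -c.M 1 2 := by simp [c.ric, Ric, M21]

lemma tD3 (a : Fin 3) (x : A) : c.Dt (c.D a x) = c.D a (c.Dt x) +
    (c.K a 0 * c.D 0 x + c.K a 1 * c.D 1 x + c.K a 2 * c.D 2 x) +
    (c.T a 0 * c.V 0 x + c.T a 1 * c.V 1 x + c.T a 2 * c.V 2 x) := by
  simpa only [Fin.sum_univ_three] using c.tD a x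

lemma jt01 : (c.D 0 (c.K 1 0) - c.D 1 (c.K 0 0) - c.T 0 2 = 0 ∧
    c.D 0 (c.K 1 1) - c.D 1 (c.K 0 1) - c.T 1 2 = 0 ∧
    c.D 0 (c.K 1 2) - c.D 1 (c.K 0 2) + c.T 0 0 + c.T 1 1 = 0) ∧
    c.D 0 (c.T 1 0) - c.D 1 (c.T 0 0) + (c.K 0 0 + c.K 1 1) * c.M 2 0 - c.K 0 2 * c.M 0 0
      - c.K 1 2 * c.M 1 0 - c.Dt (c.M 2 0) = 0 ∧
    c.D 0 (c.T 1 1) - c.D 1 (c.T 0 1) + (c.K 0 0 + c.K 1 1) * c.M 2 1 - c.K 0 2 * c.M 0 1
      - c.K 1 2 * c.M 1 1 - c.Dt (c.M 2 1) = 0 ∧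
    c.D 0 (c.T 1 2) - c.D 1 (c.T 0 2) + (c.K 0 0 + c.K 1 1) * c.M 2 2 - c.K 0 2 * c.M 0 2
      - c.K 1 2 * c.M 1 2 - c.Dt (c.M 2 2) = 0 := by
  refine c.toFr.ind3 fun x => ?_
  have h1 := (congrArg c.Dt (c.toFr.D01 x)).symm.trans (tD3 c 0 (c.D 1 x))
  simp only [map_add, map_sub, der_mul, tD3, c.tV, VD00, VD01, VD02, VD10, VD11, VD12, VD20,
    VD21, VD22, D01, D02, D12] at h1
  linear_combination -h1

lemma jt02 : (c.D 0 (c.K 2 0) - c.D 2 (c.K 0 0) + c.T 0 1 = 0 ∧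
    c.D 0 (c.K 2 1) - c.D 2 (c.K 0 1) - c.T 0 0 - c.T 2 2 = 0 ∧
    c.D 0 (c.K 2 2) - c.D 2 (c.K 0 2) + c.T 2 1 = 0) ∧
    c.D 0 (c.T 2 0) - c.D 2 (c.T 0 0) - (c.K 0 0 + c.K 2 2) * c.M 1 0 + c.K 0 1 * c.M 0 0
      + c.K 2 1 * c.M 2 0 + c.Dt (c.M 1 0) = 0 ∧
    c.D 0 (c.T 2 1) - c.D 2 (c.T 0 1) - (c.K 0 0 + c.K 2 2) * c.M 1 1 + c.K 0 1 * c.M 0 1
      + c.K 2 1 * c.M 2 1 + c.Dt (c.M 1 1) = 0 ∧
    c.D 0 (c.T 2 2) - c.D 2 (c.T 0 2) - (c.K 0 0 + c.K 2 2) * c.M 1 2 + c.K 0 1 * c.M 0 2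
      + c.K 2 1 * c.M 2 2 + c.Dt (c.M 1 2) = 0 := by
  refine c.toFr.ind3 fun x => ?_
  have h1 := (congrArg c.Dt (c.toFr.D02 x)).symm.trans (tD3 c 0 (c.D 2 x))
  simp only [map_add, map_sub, der_mul, tD3, c.tV, VD00, VD01, VD02, VD10, VD11, VD12, VD20,
    VD21, VD22, D01, D02, D12] at h1
  linear_combination -h1

lemma jt12 : (c.D 1 (c.K 2 0) - c.D 2 (c.K 1 0) + c.T 1 1 + c.T 2 2 = 0 ∧
    c.D 1 (c.K 2 1) - c.D 2 (c.K 1 1) - c.T 1 0 = 0 ∧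
    c.D 1 (c.K 2 2) - c.D 2 (c.K 1 2) - c.T 2 0 = 0) ∧
    c.D 1 (c.T 2 0) - c.D 2 (c.T 1 0) + (c.K 1 1 + c.K 2 2) * c.M 0 0 - c.K 1 0 * c.M 1 0
      - c.K 2 0 * c.M 2 0 - c.Dt (c.M 0 0) = 0 ∧
    c.D 1 (c.T 2 1) - c.D 2 (c.T 1 1) + (c.K 1 1 + c.K 2 2) * c.M 0 1 - c.K 1 0 * c.M 1 1
      - c.K 2 0 * c.M 2 1 - c.Dt (c.M 0 1) = 0 ∧
    c.D 1 (c.T 2 2) - c.D 2 (c.T 1 2) + (c.K 1 1 + c.K 2 2) * c.M 0 2 - c.K 1 0 * c.M 1 2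
      - c.K 2 0 * c.M 2 2 - c.Dt (c.M 0 2) = 0 := by
  refine c.toFr.ind3 fun x => ?_
  have h1 := (congrArg c.Dt (c.toFr.D12 x)).symm.trans (tD3 c 1 (c.D 2 x))
  simp only [map_add, map_sub, der_mul, tD3, c.tV, VD00, VD01, VD02, VD10, VD11, VD12, VD20,
    VD21, VD22, D01, D02, D12] at h1
  linear_combination -h1

lemma T00 : c.T 0 0 = c.D 2 (c.M 0 1) - c.D 1 (c.M 0 2) := by
  have h1 := (jt01 c).1.2.2
  have h2 := (jt02 c).1.2.1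
  have h3 := (jt12 c).1.1
  simp only [K12, K02, K21, K01, K20, K10, map_neg] at h1 h2 h3
  apply two_cancel
  linear_combination h1 - h2 - h3

lemma T11 : c.T 1 1 = c.D 0 (c.M 1 2) - c.D 2 (c.M 0 1) := by
  have h1 := (jt01 c).1.2.2
  simp only [K12, K02, map_neg, T00] at h1
  linear_combination h1

lemma T22 : c.T 2 2 = c.D 1 (c.M 0 2) - c.D 0 (c.M 1 2) := by
  have h1 := (jt12 c).1.1
  simp only [K20, K10, map_neg, T11] at h1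
  linear_combination h1

lemma T01 : c.T 0 1 = c.D 2 (c.M 1 1) - c.D 1 (c.M 1 2) := by
  have h1 := (jt02 c).1.1
  simp only [K20, K00, map_neg, map_add, B2] at h1
  linear_combination h1

lemma T02 : c.T 0 2 = c.D 2 (c.M 1 2) - c.D 1 (c.M 2 2) := by
  have h1 := (jt01 c).1.1
  simp only [K10, K00, map_neg, map_add, B1] at h1
  linear_combination -h1

lemma T10 : c.T 1 0 = c.D 0 (c.M 0 2) - c.D 2 (c.M 0 0) := by
  have h1 := (jt12 c).1.2.1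
  simp only [K21, K11, map_neg, map_add] at h1
  linear_combination -h1 - c.toFr.B2

lemma T12 : c.T 1 2 = c.D 0 (c.M 2 2) - c.D 2 (c.M 0 2) := by
  have h1 := (jt01 c).1.2.1
  simp only [K01, K11, map_neg, map_add] at h1
  linear_combination -h1 + c.toFr.B0

lemma T20 : c.T 2 0 = c.D 1 (c.M 0 0) - c.D 0 (c.M 0 1) := by
  have h1 := (jt12 c).1.2.2
  simp only [K22, K12, map_neg, map_add] at h1
  linear_combination -h1 + c.toFr.B1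

lemma T21 : c.T 2 1 = c.D 1 (c.M 0 1) - c.D 0 (c.M 1 1) := by
  have h1 := (jt02 c).1.2.2
  simp only [K22, K02, map_neg, map_add] at h1
  linear_combination h1 - c.toFr.B0

end Vale.Agent.P216H
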