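import Vale.Agent.P216H.Id1

/-! # Harnack: the heat operator, evolution of `M` and `T` -/

set_option linter.unusedSimpArgs false

namespace Vale.Agent.P216H

open Vale.Agent.P216D Vale.Agent.P216D.Fr

/-- contraction with the alternating symbol -/
def cr {R : Type*} [CommRing R] (X : Fin 3 → Fin 3 → R) (a : Fin 3) : R :=
  X (a + 1) (a + 2) - X (a + 2) (a + 1)

/-- the polarised adjugate -/
def sh {R : Type*} [CommRing R] (X N : Fin 3 → Fin 3 → R) (a b : Fin 3) : R :=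
  X (a + 2) (b + 2) * N (a + 1) (b + 1) - X (a + 2) (b + 1) * N (a + 1) (b + 2)
    - X (a + 1) (b + 2) * N (a + 2) (b + 1) + X (a + 1) (b + 1) * N (a + 2) (b + 2)

/-- `X Yᵀ` -/
def mt {R : Type*} [CommRing R] (X Y : Fin 3 → Fin 3 → R) (a b : Fin 3) : R :=
  X a 0 * Y b 0 + X a 1 * Y b 1 + X a 2 * Y b 2

lemma f01 : (0 : Fin 3) + 1 = 1 := rfl
lemma f02 : (0 : Fin 3) + 2 = 2 := rfl
lemma f11 : (1 : Fin 3) + 1 = 2 := rfl
lemma f12 : (1 : Fin 3) + 2 = 0 := rfl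
lemma f21 : (2 : Fin 3) + 1 = 0 := rfl
lemma f22 : (2 : Fin 3) + 2 = 1 := rfl

variable {A : Type*} [CommRing A] [Algebra ℝ A] (c : RF A)

/-- the heat operator -/
def box (x : A) : A := c.Dt x - (c.D 0 (c.D 0 x) + c.D 1 (c.D 1 x) + c.D 2 (c.D 2 x))

lemma box_eq (x : A) : box c x = c.Dt x - c.toFr.Lap x := by
  simp only [box, Lap, Fin.sum_univ_three]

lemma box_add (x y : A) : box c (x + y) = box c x + box c y := by
  simp only [box, map_add]; ring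

lemma box_sub (x y : A) : box c (x - y) = box c x - box c y := by
  simp only [box, map_sub]; ring

lemma box_neg (x : A) : box c (-x) = -box c x := by
  simp only [box, map_neg]; ring

lemma box_mul (x y : A) : box c (x * y) = x * box c y + y * box c x -
    2 * (c.D 0 x * c.D 0 y + c.D 1 x * c.D 1 y + c.D 2 x * c.D 2 y) := by
  simp only [box, map_add, der_mul]; ring

lemma box_D0 (x : A) : box c (c.D 0 x) = c.D 0 (box c x) +
    2 * (c.M 0 2 * c.D 1 (c.V 0 x) + c.M 1 2 * c.D 1 (c.V 1 x) + c.M 2 2 * c.D 1 (c.V 2 x) -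
      (c.M 0 1 * c.D 2 (c.V 0 x) + c.M 1 1 * c.D 2 (c.V 1 x) + c.M 1 2 * c.D 2 (c.V 2 x))) := by
  simp only [box, map_add, map_sub, der_mul, tD3, VD00, VD01, VD02, VD10, VD11, VD12, VD20,
    VD21, VD22, D01, D02, D12, M10, M20, M21, K00, K01, K02, T00, T01, T02]
  ring

lemma box_D1 (x : A) : box c (c.D 1 x) = c.D 1 (box c x) +
    2 * (c.M 0 0 * c.D 2 (c.V 0 x) + c.M 0 1 * c.D 2 (c.V 1 x) + c.M 0 2 * c.D 2 (c.V 2 x) -
      (c.M 0 2 * c.D 0 (c.V 0 x) + c.M 1 2 * c.D 0 (c.V 1 x) + c.M 2 2 * c.D 0 (c.V 2 x))) := by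
  simp only [box, map_add, map_sub, der_mul, tD3, VD00, VD01, VD02, VD10, VD11, VD12, VD20,
    VD21, VD22, D01, D02, D12, M10, M20, M21, K10, K11, K12, T10, T11, T12]
  ring

lemma box_D2 (x : A) : box c (c.D 2 x) = c.D 2 (box c x) +
    2 * (c.M 0 1 * c.D 0 (c.V 0 x) + c.M 1 1 * c.D 0 (c.V 1 x) + c.M 1 2 * c.D 0 (c.V 2 x) -
      (c.M 0 0 * c.D 1 (c.V 0 x) + c.M 0 1 * c.D 1 (c.V 1 x) + c.M 0 2 * c.D 1 (c.V 2 x))) := by
  simp only [box, map_add, map_sub, der_mul, tD3, VD00, VD01, VD02, VD10, VD11, VD12, VD20,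
    VD21, VD22, D01, D02, D12, M10, M20, M21, K20, K21, K22, T20, T21, T22]
  ring

lemma DtM0 (d : Fin 3) : c.Dt (c.M 0 d) = c.D 1 (c.T 2 d) - c.D 2 (c.T 1 d) +
    (c.K 1 1 + c.K 2 2) * c.M 0 d - c.K 1 0 * c.M 1 d - c.K 2 0 * c.M 2 d := by
  revert d
  refine all3 ?_ ?_ ?_
  · linear_combination -(jt12 c).2.1
  · linear_combination -(jt12 c).2.2.1
  · linear_combination -(jt12 c).2.2.2

lemma DtM1 (d : Fin 3) : c.Dt (c.M 1 d) = c.D 2 (c.T 0 d) - c.D 0 (c.T 2 d) +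
    (c.K 0 0 + c.K 2 2) * c.M 1 d - c.K 0 1 * c.M 0 d - c.K 2 1 * c.M 2 d := by
  revert d
  refine all3 ?_ ?_ ?_
  · linear_combination (jt02 c).2.1
  · linear_combination (jt02 c).2.2.1
  · linear_combination (jt02 c).2.2.2

lemma DtM2 (d : Fin 3) : c.Dt (c.M 2 d) = c.D 0 (c.T 1 d) - c.D 1 (c.T 0 d) +
    (c.K 0 0 + c.K 1 1) * c.M 2 d - c.K 0 2 * c.M 0 d - c.K 1 2 * c.M 1 d := by
  revert d
  refine all3 ?_ ?_ ?_
  · linear_combination -(jt01 c).2.1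
  · linear_combination -(jt01 c).2.2.1
  · linear_combination -(jt01 c).2.2.2

lemma boxM (a b : Fin 3) : box c (c.M a b) = 2 * mt c.M c.M a b + sh c.M c.M a b := by
  revert a b
  refine all3 (all3 ?_ ?_ ?_) (all3 ?_ ?_ ?_) (all3 ?_ ?_ ?_) <;>
  simp only [box, DtM0, DtM1, DtM2] <;>
  simp only [mt, sh, f01, f02, f11, f12, f21, f22, map_add, map_sub, map_neg, der_mul, D01, D02,
    D12, M10, M20, M21, K00, K01, K02, K10, K11, K12, K20, K21, K22, T00, T01, T02, T10, T11, T12,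
    T20, T21, T22, B0, B1, B2, VM000, VM001, VM002, VM011, VM012, VM022, VM100, VM101, VM102,
    VM111, VM112, VM122, VM200, VM201, VM202, VM211, VM212, VM222] <;>
  ring

lemma boxM00 : box c (c.M 0 0) = 2 * (c.M 0 0 * c.M 0 0 + c.M 0 1 * c.M 0 1 + c.M 0 2 * c.M 0 2 +
    c.M 1 1 * c.M 2 2 - c.M 1 2 * c.M 1 2) := by
  simp only [boxM, mt, sh, f01, f02, M21]; ring

lemma boxM11 : box c (c.M 1 1) = 2 * (c.M 0 1 * c.M 0 1 + c.M 1 1 * c.M 1 1 + c.M 1 2 * c.M 1 2 +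
    c.M 0 0 * c.M 2 2 - c.M 0 2 * c.M 0 2) := by
  simp only [boxM, mt, sh, f11, f12, M20, M10]; ring

lemma boxM22 : box c (c.M 2 2) = 2 * (c.M 0 2 * c.M 0 2 + c.M 1 2 * c.M 1 2 + c.M 2 2 * c.M 2 2 +
    c.M 0 0 * c.M 1 1 - c.M 0 1 * c.M 0 1) := by
  simp only [boxM, mt, sh, f21, f22, M20, M10, M21]; ring

lemma boxM01 : box c (c.M 0 1) = 2 * (c.M 0 0 * c.M 0 1 + c.M 0 1 * c.M 1 1 + c.M 0 2 * c.M 1 2 +
    c.M 0 2 * c.M 1 2 - c.M 0 1 * c.M 2 2) := by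
  simp only [boxM, mt, sh, f01, f02, f11, f12, M20, M10, M21]; ring

lemma boxM02 : box c (c.M 0 2) = 2 * (c.M 0 0 * c.M 0 2 + c.M 0 1 * c.M 1 2 + c.M 0 2 * c.M 2 2 +
    c.M 0 1 * c.M 1 2 - c.M 0 2 * c.M 1 1) := by
  simp only [boxM, mt, sh, f01, f02, f21, f22, M20, M10, M21]; ring

lemma boxM12 : box c (c.M 1 2) = 2 * (c.M 0 1 * c.M 0 2 + c.M 1 1 * c.M 1 2 + c.M 1 2 * c.M 2 2 +
    c.M 0 1 * c.M 0 2 - c.M 1 2 * c.M 0 0) := by
  simp only [boxM, mt, sh, f11, f12, f21, f22, M20, M10, M21]; ring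

/-- `(K · D) X` -/
def kd (x : A) (b : Fin 3) : A := c.K 0 b * c.D 0 x + c.K 1 b * c.D 1 x + c.K 2 b * c.D 2 x

lemma boxT (a e : Fin 3) : box c (c.T a e) =
    2 * cr (fun f b => kd c (c.M e f) b) a + 2 * mt c.T c.M a e + 2 * sh c.T c.M a e := by
  revert a e
  refine all3 (all3 ?_ ?_ ?_) (all3 ?_ ?_ ?_) (all3 ?_ ?_ ?_) <;>
  simp only [T00, T01, T02, T10, T11, T12, T20, T21, T22, box_sub, box_D0, box_D1, box_D2,
    boxM00, boxM11, boxM22, boxM01, boxM02, boxM12] <;>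
  simp only [cr, kd, mt, sh, f01, f02, f11, f12, f21, f22, map_add, map_sub, map_neg, map_zero,
    der_mul, der_ofNat,
    M10, M20, M21, K00, K01, K02, K10, K11, K12, K20, K21, K22, T00, T01, T02, T10, T11, T12,
    T20, T21, T22, B0, B1, B2, VM000, VM001, VM002, VM011, VM012, VM022, VM100, VM101, VM102,
    VM111, VM112, VM122, VM200, VM201, VM202, VM211, VM212, VM222] <;>
  ring

end Vale.Agent.P216H
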