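import Vale.Agent.P216H.Id2

/-! # Harnack: evolution of the steady Harnack tensor -/

set_option linter.unusedSimpArgs false

namespace Vale.Agent.P216H

open Vale.Agent.P216D Vale.Agent.P216D.Fr

variable {A : Type*} [CommRing A] [Algebra ℝ A] (c : RF A)

/-- the steady part of the Harnack tensor -/
def H0 (a b : Fin 3) : A := sh c.K c.M a b - cr (fun p q => c.D p (c.T b q)) a

lemma boxK (a b : Fin 3) : box c (c.K a b) = 2 * sh c.K c.M a b := by
  revert a b
  refine all3 (all3 ?_ ?_ ?_) (all3 ?_ ?_ ?_) (all3 ?_ ?_ ?_) <;>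
  simp only [sh, f01, f02, f11, f12, f21, f22, K00, K01, K02, K10, K11, K12, K20, K21, K22,
    box_add, box_neg, boxM00, boxM11, boxM22, boxM01, boxM02, boxM12, M10, M20, M21] <;>
  ring

lemma VT0 (a e : Fin 3) : c.V 0 (c.T a e) =
    ![0, c.T 2 e, -c.T 1 e] a + ![0, c.T a 2, -c.T a 1] e := by
  revert a e
  refine all3 (all3 ?_ ?_ ?_) (all3 ?_ ?_ ?_) (all3 ?_ ?_ ?_) <;>
  simp only [T00, T01, T02, T10, T11, T12, T20, T21, T22, map_add, map_sub, map_neg, map_zero,
    VD00, VD01, VD02, VM000, VM001, VM002, VM011, VM012, VM022, B0, B1, B2, Matrix.cons_val_zero,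
    Matrix.cons_val_one, Matrix.cons_val] <;>
  ring

lemma VT1 (a e : Fin 3) : c.V 1 (c.T a e) =
    ![-c.T 2 e, 0, c.T 0 e] a + ![-c.T a 2, 0, c.T a 0] e := by
  revert a e
  refine all3 (all3 ?_ ?_ ?_) (all3 ?_ ?_ ?_) (all3 ?_ ?_ ?_) <;>
  simp only [T00, T01, T02, T10, T11, T12, T20, T21, T22, map_add, map_sub, map_neg, map_zero,
    VD10, VD11, VD12, VM100, VM101, VM102, VM111, VM112, VM122, B0, B1, B2, Matrix.cons_val_zero,
    Matrix.cons_val_one, Matrix.cons_val] <;>
  ring

lemma VT2 (a e : Fin 3) : c.V 2 (c.T a e) =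
    ![c.T 1 e, -c.T 0 e, 0] a + ![c.T a 1, -c.T a 0, 0] e := by
  revert a e
  refine all3 (all3 ?_ ?_ ?_) (all3 ?_ ?_ ?_) (all3 ?_ ?_ ?_) <;>
  simp only [T00, T01, T02, T10, T11, T12, T20, T21, T22, map_add, map_sub, map_neg, map_zero,
    VD20, VD21, VD22, VM200, VM201, VM202, VM211, VM212, VM222, B0, B1, B2, Matrix.cons_val_zero,
    Matrix.cons_val_one, Matrix.cons_val] <;>
  ring

lemma trT : c.T 0 0 + c.T 1 1 + c.T 2 2 = 0 := by
  simp only [T00, T11, T22]; ring

lemma H0_symm (a b : Fin 3) : H0 c a b = H0 c b a := by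
  revert a b
  refine all3 (all3 rfl ?_ ?_) (all3 ?_ rfl ?_) (all3 ?_ ?_ rfl) <;>
  simp only [H0, cr, sh, f01, f02, f11, f12, f21, f22, map_add, map_sub, map_neg, D01, D02,
    D12, M10, M20, M21, K00, K01, K02, K10, K11, K12, K20, K21, K22, T00, T01, T02, T10, T11, T12,
    T20, T21, T22, B0, B1, B2, VM000, VM001, VM002, VM011, VM012, VM022, VM100, VM101, VM102,
    VM111, VM112, VM122, VM200, VM201, VM202, VM211, VM212, VM222] <;>
  ring

/-- the right hand side of the evolution equation of `H0` -/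
def rH (a b : Fin 3) : A :=
  2 * cr (fun e r => kd c (c.T b e) r) a + 2 * cr (fun e r => kd c (c.T a e) r) b +
    2 * sh (mt c.K c.K) c.M a b + 2 * mt c.T c.T a b + 2 * sh (H0 c) c.M a b +
    2 * sh c.T (fun i j => c.T j i) a b

lemma box_cr (b a : Fin 3) : box c (cr (fun p q => c.D p (c.T b q)) a) =
    cr (fun p q => box c (c.D p (c.T b q))) a := by
  simp only [cr, box_sub]

lemma box_sh (X N : Fin 3 → Fin 3 → A) (a b : Fin 3) : box c (sh X N a b) =
    sh X (fun i j => box c (N i j)) a b + sh (fun i j => box c (X i j)) N a b -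
    2 * (sh (fun i j => c.D 0 (X i j)) (fun i j => c.D 0 (N i j)) a b +
      sh (fun i j => c.D 1 (X i j)) (fun i j => c.D 1 (N i j)) a b +
      sh (fun i j => c.D 2 (X i j)) (fun i j => c.D 2 (N i j)) a b) := by
  simp only [sh, box_add, box_sub, box_mul]; ring

lemma boxH00 : box c (H0 c 0 0) = rH c 0 0 := by
  rw [H0, box_sub, box_cr, box_sh]
  simp only [cr, f01, f02, f11, f12, f21, f22, box_D0, box_D1, box_D2, boxT, boxK, boxM, VT0, VT1, VT2,
    Matrix.cons_val_zero, Matrix.cons_val_one, Matrix.cons_val]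
  simp only [rH, H0, cr, kd, mt, sh, f01, f02, f11, f12, f21, f22, map_add, map_sub, map_neg,
    map_zero, der_mul, der_ofNat,
    M10, M20, M21, K00, K01, K02, K10, K11, K12, K20, K21, K22, T00, T01, T02, T10, T11, T12,
    T20, T21, T22]
  simp only [map_add, map_sub, map_neg, D01, D02, D12, B0, B1, B2, VM000, VM001, VM002, VM011,
    VM012, VM022, VM100, VM101, VM102,
    VM111, VM112, VM122, VM200, VM201, VM202, VM211, VM212, VM222, M10, M20, M21]
  ring

lemma boxH01 : box c (H0 c 0 1) = rH c 0 1 := by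
  rw [H0, box_sub, box_cr, box_sh]
  simp only [cr, f01, f02, f11, f12, f21, f22, box_D0, box_D1, box_D2, boxT, boxK, boxM, VT0, VT1, VT2,
    Matrix.cons_val_zero, Matrix.cons_val_one, Matrix.cons_val]
  simp only [rH, H0, cr, kd, mt, sh, f01, f02, f11, f12, f21, f22, map_add, map_sub, map_neg,
    map_zero, der_mul, der_ofNat,
    M10, M20, M21, K00, K01, K02, K10, K11, K12, K20, K21, K22, T00, T01, T02, T10, T11, T12,
    T20, T21, T22]
  simp only [map_add, map_sub, map_neg, D01, D02, D12, B0, B1, B2, VM000, VM001, VM002, VM011,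
    VM012, VM022, VM100, VM101, VM102,
    VM111, VM112, VM122, VM200, VM201, VM202, VM211, VM212, VM222, M10, M20, M21]
  ring

lemma boxH02 : box c (H0 c 0 2) = rH c 0 2 := by
  rw [H0, box_sub, box_cr, box_sh]
  simp only [cr, f01, f02, f11, f12, f21, f22, box_D0, box_D1, box_D2, boxT, boxK, boxM, VT0, VT1, VT2,
    Matrix.cons_val_zero, Matrix.cons_val_one, Matrix.cons_val]
  simp only [rH, H0, cr, kd, mt, sh, f01, f02, f11, f12, f21, f22, map_add, map_sub, map_neg,
    map_zero, der_mul, der_ofNat,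
    M10, M20, M21, K00, K01, K02, K10, K11, K12, K20, K21, K22, T00, T01, T02, T10, T11, T12,
    T20, T21, T22]
  simp only [map_add, map_sub, map_neg, D01, D02, D12, B0, B1, B2, VM000, VM001, VM002, VM011,
    VM012, VM022, VM100, VM101, VM102,
    VM111, VM112, VM122, VM200, VM201, VM202, VM211, VM212, VM222, M10, M20, M21]
  ring

lemma boxH11 : box c (H0 c 1 1) = rH c 1 1 := by
  rw [H0, box_sub, box_cr, box_sh]
  simp only [cr, f01, f02, f11, f12, f21, f22, box_D0, box_D1, box_D2, boxT, boxK, boxM, VT0, VT1, VT2,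
    Matrix.cons_val_zero, Matrix.cons_val_one, Matrix.cons_val]
  simp only [rH, H0, cr, kd, mt, sh, f01, f02, f11, f12, f21, f22, map_add, map_sub, map_neg,
    map_zero, der_mul, der_ofNat,
    M10, M20, M21, K00, K01, K02, K10, K11, K12, K20, K21, K22, T00, T01, T02, T10, T11, T12,
    T20, T21, T22]
  simp only [map_add, map_sub, map_neg, D01, D02, D12, B0, B1, B2, VM000, VM001, VM002, VM011,
    VM012, VM022, VM100, VM101, VM102,
    VM111, VM112, VM122, VM200, VM201, VM202, VM211, VM212, VM222, M10, M20, M21]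
  ring

lemma boxH12 : box c (H0 c 1 2) = rH c 1 2 := by
  rw [H0, box_sub, box_cr, box_sh]
  simp only [cr, f01, f02, f11, f12, f21, f22, box_D0, box_D1, box_D2, boxT, boxK, boxM, VT0, VT1, VT2,
    Matrix.cons_val_zero, Matrix.cons_val_one, Matrix.cons_val]
  simp only [rH, H0, cr, kd, mt, sh, f01, f02, f11, f12, f21, f22, map_add, map_sub, map_neg,
    map_zero, der_mul, der_ofNat,
    M10, M20, M21, K00, K01, K02, K10, K11, K12, K20, K21, K22, T00, T01, T02, T10, T11, T12,
    T20, T21, T22]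
  simp only [map_add, map_sub, map_neg, D01, D02, D12, B0, B1, B2, VM000, VM001, VM002, VM011,
    VM012, VM022, VM100, VM101, VM102,
    VM111, VM112, VM122, VM200, VM201, VM202, VM211, VM212, VM222, M10, M20, M21]
  ring

lemma boxH22 : box c (H0 c 2 2) = rH c 2 2 := by
  rw [H0, box_sub, box_cr, box_sh]
  simp only [cr, f01, f02, f11, f12, f21, f22, box_D0, box_D1, box_D2, boxT, boxK, boxM, VT0, VT1, VT2,
    Matrix.cons_val_zero, Matrix.cons_val_one, Matrix.cons_val]
  simp only [rH, H0, cr, kd, mt, sh, f01, f02, f11, f12, f21, f22, map_add, map_sub, map_neg,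
    map_zero, der_mul, der_ofNat,
    M10, M20, M21, K00, K01, K02, K10, K11, K12, K20, K21, K22, T00, T01, T02, T10, T11, T12,
    T20, T21, T22]
  simp only [map_add, map_sub, map_neg, D01, D02, D12, B0, B1, B2, VM000, VM001, VM002, VM011,
    VM012, VM022, VM100, VM101, VM102,
    VM111, VM112, VM122, VM200, VM201, VM202, VM211, VM212, VM222, M10, M20, M21]
  ring

lemma rH_symm (a b : Fin 3) : rH c a b = rH c b a := by
  revert a b
  refine all3 (all3 rfl ?_ ?_) (all3 ?_ rfl ?_) (all3 ?_ ?_ rfl) <;>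
  simp only [rH, sh, mt, f01, f02, f11, f12, f21, f22, M10, M20, M21, H0_symm c 1 0, H0_symm c 2 0,
    H0_symm c 2 1] <;>
  ring

lemma boxH (a b : Fin 3) : box c (H0 c a b) = rH c a b := by
  revert a b
  refine all3 (all3 (boxH00 c) (boxH01 c) (boxH02 c)) (all3 ?_ (boxH11 c) (boxH12 c))
    (all3 ?_ ?_ (boxH22 c))
  · rw [H0_symm, rH_symm, boxH01]
  · rw [H0_symm, rH_symm, boxH02]
  · rw [H0_symm, rH_symm, boxH12]

/-- the trace of the Harnack tensor is half the time derivative of the scalar curvature -/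
lemma trH0 : H0 c 0 0 + H0 c 1 1 + H0 c 2 2 = c.Dt c.toFr.S := by
  simp only [S, map_add, DtM0, DtM1, DtM2, H0, cr, sh, f01, f02, f11, f12, f21, f22, M10, M20, M21,
    K00, K01, K02, K10, K11, K12, K20, K21, K22]
  ring

lemma crT (p : Fin 3) : cr c.T p = c.D p c.toFr.S := by
  revert p
  refine all3 ?_ ?_ ?_ <;>
  simp only [S, cr, map_add, f01, f02, f11, f12, f21, f22, T01, T02, T10, T12, T20, T21, B0, B1,
    B2] <;>
  ring

end Vale.Agent.P216H
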