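import Vale.Agent.P216H.Pt3
import Vale.Agent.P216D.ModGS
import Vale.Agent.P216B.Top

/-! # Harnack: topological lemmas, smooth barriers -/

open Set Filter Topology Metric
open scoped ContDiff

set_option maxSynthPendingDepth 3

namespace Vale.Agent.P216H

open Vale.Agent.P216D
open Vale.Agent.P216R (E3)

/-- the first time at which a relatively open property fails -/
lemma first_bad {X : Type*} [TopologicalSpace X] {S : Set X} (hS : IsCompact S) {τ : X → ℝ}
    (hτ : ContinuousOn τ S) {P : X → Prop} (hP : ∀ q ∈ S, P q → ∀ᶠ r in 𝓝[S] q, P r)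
    (h : ∃ q ∈ S, ¬P q) : ∃ q ∈ S, ¬P q ∧ ∀ r ∈ S, τ r < τ q → P r := by
  have := isCompact_iff_compactSpace.1 hS
  have k1 : IsClosed {q : S | ¬P q} := by
    rw [← isOpen_compl_iff, isOpen_iff_mem_nhds]
    intro q hq
    have := hP q q.2 (not_not.1 hq)
    rw [nhdsWithin_eq_map_subtype_coe q.2] at this
    exact (eventually_map.1 this).mono fun r hr => not_not.2 hr
  obtain ⟨q0, hq0, h0⟩ := h
  obtain ⟨q, h1, h2⟩ := k1.isCompact.exists_isMinOn ⟨⟨q0, hq0⟩, h0⟩ hτ.domRestrict.continuousOn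
  exact ⟨q, q.2, h1, fun r hr hlt => by_contra fun hn => absurd (h2 (a := ⟨r, hr⟩) hn) (not_le.2 hlt)⟩

/-- positivity on all orthonormal frames is an open condition -/
lemma open_pos {X Y : Type*} [TopologicalSpace X] [NormedAddCommGroup Y] [NormedSpace ℝ Y]
    [ProperSpace Y] {S : Set X} {x : X} {G : X → Bi} (hG : ContinuousWithinAt G S x)
    (hp : ∀ v, v ≠ 0 → 0 < G x v v) {Φ : X × (Fin 3 → E3) × Y → ℝ}
    (hΦ : ∀ w, ContinuousWithinAt Φ (S ×ˢ univ) (x, w))
    (hom : ∀ z e y (s : ℝ), Φ (z, e, s • y) = s ^ 2 * Φ (z, e, y))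
    (h : ∀ e, ON (G x) e → ∀ y, y ≠ 0 → 0 < Φ (x, e, y)) :
    ∀ᶠ z in 𝓝[S] x, ∀ e, ON (G z) e → ∀ y, y ≠ 0 → 0 < Φ (z, e, y) := by
  obtain ⟨c, hc, hB⟩ := P216R.exists_coer hp
  have h1 := P216R.close_forms hG hc hB one_pos
  have hK : IsCompact (closedBall (0 : Fin 3 → E3) √(2 / c) ×ˢ sphere (0 : Y) 1) :=
    (isCompact_closedBall _ _).prod (isCompact_sphere _ _)
  have h2 := hK.eventually_forall_of_forall_eventually (x₀ := x)
    (P := fun z w => z ∈ S → ON (G z) w.1 → 0 < Φ (z, w)) fun w hw => by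
      have key : ∀ᶠ z : X × (Fin 3 → E3) × Y in 𝓝[S ×ˢ univ] (x, w), ON (G z.1) z.2.1 → 0 < Φ z := by
        by_cases hon : ON (G x) w.1
        · have : w.2 ≠ 0 := ne_of_mem_sphere hw.2 one_ne_zero
          exact ((hΦ w).eventually (lt_mem_nhds (h _ hon _ this))).mono fun _ k _ => k
        · simp only [ON, not_forall] at hon
          obtain ⟨a, b, hab⟩ := hon
          have k1 : ContinuousWithinAt (fun z : X × (Fin 3 → E3) × Y => G z.1) (S ×ˢ univ) (x, w) :=
            ContinuousWithinAt.comp (g := G) hG continuousWithinAt_fst fun _ k => k.1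
          have k2 : ContinuousWithinAt (fun z : X × (Fin 3 → E3) × Y => G z.1 (z.2.1 a) (z.2.1 b))
              (S ×ˢ univ) (x, w) :=
            (k1.clm_apply (by fun_prop)).clm_apply (by fun_prop)
          exact (k2.eventually_ne hab).mono fun _ k l => absurd (l a b) k
      exact (eventually_nhdsWithin_iff.1 key).mono fun z k l => k ⟨l, trivial⟩
  filter_upwards [h1, nhdsWithin_le_nhds h2, self_mem_nhdsWithin] with z a b hz e he y hy
  have h3 : e ∈ closedBall (0 : Fin 3 → E3) √(2 / c) := by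
    rw [mem_closedBall_zero_iff, pi_norm_le_iff_of_nonneg (Real.sqrt_nonneg _)]
    intro i
    refine Real.le_sqrt_of_sq_le ((le_div_iff₀ hc).2 ?_)
    have := (a (e i)).2
    rw [he i i, dl_self] at this
    push_cast at this
    linarith [hB (e i)]
  have h4 : 0 < ‖y‖ := norm_pos_iff.2 hy
  have h5 := b (e, ‖y‖⁻¹ • y) ⟨h3, by simp [norm_smul, h4.ne']⟩ hz he
  rw [hom] at h5
  exact pos_of_mul_pos_right h5 (sq_nonneg _)

/-- nonnegativity passes to the limit -/
lemma nonneg_lim {X : Type*} [TopologicalSpace X] {S : Set X} {x : X} [(𝓝[S] x).NeBot] {G : X → Bi}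
    (hG : ContinuousWithinAt G S x) (hs : ∀ z ∈ S, ∀ u v, G z u v = G z v u)
    {Φ : X × (Fin 3 → E3) → ℝ} {e : Fin 3 → E3} (he : ON (G x) e)
    (hΦ : ContinuousWithinAt Φ (S ×ˢ univ) (x, e))
    (h : ∀ᶠ z in 𝓝[S] x, ∀ e, ON (G z) e → 0 ≤ Φ (z, e)) : 0 ≤ Φ (x, e) := by
  have h0 : Ps (gram (G x) e) := he.gram ▸ ps_un
  have h1 : Tendsto (fun z => gs (G z) e) (𝓝[S] x) (𝓝 e) := by
    have := (sm_gs h0).continuousAt.tendsto.comp (hG.prodMk continuousWithinAt_const)
    rwa [he.gs] at this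
  have h2 : Tendsto (fun z => gram (G z) e) (𝓝[S] x) (𝓝 (gram (G x) e)) :=
    tendsto_pi_nhds.2 fun a => tendsto_pi_nhds.2 fun b =>
      (hG.clm_apply continuousWithinAt_const).clm_apply continuousWithinAt_const
  have h3 : Tendsto (fun z => (z, gs (G z) e)) (𝓝[S] x) (𝓝[S ×ˢ univ] (x, e)) :=
    tendsto_nhdsWithin_iff.2 ⟨(tendsto_id'.2 nhdsWithin_le_nhds).prodMk_nhds h1,
      eventually_mem_nhdsWithin.mono fun z hz => ⟨hz, trivial⟩⟩
  refine ge_of_tendsto (hΦ.tendsto.comp h3) ?_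
  filter_upwards [h, h2.eventually h0.near, self_mem_nhdsWithin] with z a b hz
  exact a _ (gs_on (hs z hz) b)

section Taylor

variable {E : Type*} [NormedAddCommGroup E] [NormedSpace ℝ E]

/-- a function with vanishing gradient and negative second derivative has a local maximum -/
lemma local_max {k : E → ℝ} {x : E} (hk : ContDiffAt ℝ 2 k x) (h1 : fderiv ℝ k x = 0) {ε : ℝ}
    (hε : 0 < ε) (h2 : ∀ v, fderiv ℝ (fderiv ℝ k) x v v ≤ -ε * ‖v‖ ^ 2) :
    ∀ᶠ z in 𝓝 x, k z ≤ k x := by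
  have h3 : HasFDerivAt (fderiv ℝ k) (fderiv ℝ (fderiv ℝ k) x) x :=
    ((hk.fderiv_right (m := 1) (by norm_num)).differentiableAt one_ne_zero).hasFDerivAt
  have h4 := h3.isLittleO.def hε
  have h5 : ∀ᶠ z in 𝓝 x, DifferentiableAt ℝ k z :=
    ((hk.of_le (m := 1) (by norm_num)).eventually (by simp)).mono fun z h =>
      h.differentiableAt one_ne_zero
  obtain ⟨r, hr, h6⟩ := Metric.eventually_nhds_iff_ball.1 (h4.and h5)
  filter_upwards [ball_mem_nhds x hr] with z hz
  have h7 : ∀ s ∈ Icc (0 : ℝ) 1, x + s • (z - x) ∈ ball x r := fun s hs =>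
    (convex_ball x r).add_smul_sub_mem (mem_ball_self hr) hz hs
  have h8 : ∀ s ∈ Icc (0 : ℝ) 1, HasDerivAt (fun s : ℝ => k (x + s • (z - x)))
      (fderiv ℝ k (x + s • (z - x)) (z - x)) s := fun s hs =>
    (h6 _ (h7 s hs)).2.hasFDerivAt.comp_hasDerivAt s
      (by simpa using ((hasDerivAt_id s).smul_const (z - x)).const_add x)
  obtain ⟨s, hs, h9⟩ := exists_hasDerivAt_eq_slope _ _ one_pos
    (fun s hs => (h8 s hs).continuousAt.continuousWithinAt) fun s hs => h8 s (Ioo_subset_Icc_self hs)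
  have h10 := (h6 _ (h7 s (Ioo_subset_Icc_self hs))).1
  rw [h1, sub_zero, add_sub_cancel_left] at h10
  have h11 := (le_abs_self _).trans (((fderiv ℝ k (x + s • (z - x)) -
    fderiv ℝ (fderiv ℝ k) x (s • (z - x))).le_opNorm (z - x)).trans
      (mul_le_mul_of_nonneg_right h10 (norm_nonneg _)))
  simp only [sub_apply, map_smul, smul_apply, smul_eq_mul,
    norm_smul, Real.norm_eq_abs, abs_of_pos hs.1] at h11
  simp only [one_smul, add_sub_cancel, zero_smul, add_zero, sub_zero, div_one] at h9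
  nlinarith [mul_le_mul_of_nonneg_left (h2 (z - x)) hs.1.le]

/-- a smooth function of the whole space that touches a given germ from above -/
lemma exists_above {f : E → ℝ} {x : E} (hf : ContDiffAt ℝ 2 f x) {ε : ℝ} (hε : 0 < ε)
    {Q : E →L[ℝ] E →L[ℝ] ℝ} (hQ : ∀ v w, Q v w = Q w v) (hc : ∀ v, ε * ‖v‖ ^ 2 ≤ Q v v) :
    ∃ F : E → ℝ, ContDiff ℝ ∞ F ∧ F x = f x ∧ fderiv ℝ F x = fderiv ℝ f x ∧
      fderiv ℝ (fderiv ℝ F) x = fderiv ℝ (fderiv ℝ f) x + Q ∧
      ∀ᶠ z in 𝓝 x, f z ≤ F z := by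
  set B : E →L[ℝ] E →L[ℝ] ℝ := fderiv ℝ (fderiv ℝ f) x + Q with hB
  have hs : ∀ v w, B v w = B w v := fun v w => by
    simp [hB, (hf.isSymmSndFDerivAt (by simp)).eq v w, hQ v w]
  set F : E → ℝ := fun z => f x + fderiv ℝ f x (z - x) + 1 / 2 * B (z - x) (z - x) with hF
  have hd : ∀ z, HasFDerivAt F (fderiv ℝ f x + B (z - x)) z := fun z => by
    have h0 : HasFDerivAt (fun z => z - x) (ContinuousLinearMap.id ℝ E) z :=
      (hasFDerivAt_id z).sub_const x
    refine ((((fderiv ℝ f x).hasFDerivAt.comp z h0).const_add (f x)).add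
      (((B.hasFDerivAt.comp z h0).clm_apply h0).const_mul (1 / 2))).congr_fderiv ?_
    ext v
    simp [hs v]
    ring
  have e1 : fderiv ℝ F = fun z => fderiv ℝ f x + B (z - x) := funext fun z => (hd z).fderiv
  have e2 : fderiv ℝ (fderiv ℝ F) x = B := by
    rw [e1]
    simpa using ((B.hasFDerivAt.comp x ((hasFDerivAt_id x).sub_const x)).const_add
      (fderiv ℝ f x)).fderiv
  have sm : ContDiff ℝ ∞ F := by rw [hF]; fun_prop
  have e3 : fderiv ℝ F x = fderiv ℝ f x := by simp [e1]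
  have e4 : F x = f x := by simp [hF]
  refine ⟨F, sm, e4, e3, e2, ?_⟩
  have s2 : ContDiffAt ℝ 2 F x := sm.contDiffAt.of_le (by norm_cast)
  have e5 : fderiv ℝ (f - F) =ᶠ[𝓝 x] fderiv ℝ f - fderiv ℝ F := by
    filter_upwards [(hf.of_le (m := 1) (by norm_num)).eventually (by simp)] with z hz
    exact fderiv_sub (hz.differentiableAt one_ne_zero) (hd z).differentiableAt
  have := local_max (k := f - F) (hf.sub s2) (by rw [e5.self_of_nhds]; simp [e3]) hε fun v => by
    rw [e5.fderiv_eq, fderiv_sub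
      ((hf.fderiv_right (m := 1) (by norm_num)).differentiableAt one_ne_zero)
      ((s2.fderiv_right (m := 1) (by norm_num)).differentiableAt one_ne_zero), e2]
    simpa [hB] using hc v
  exact this.mono fun z hz => by simpa [e4] using hz

end Taylor

end Vale.Agent.P216H
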