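import Vale.Agent.P216H.Quad

/-! # Harnack: the identity of Hamilton and the step at the first null vector -/

set_option linter.unusedSimpArgs false

namespace Vale.Agent.P216H

open Vale.Agent.P216D Vale.Agent.P216D.Fr

variable {A : Type*} [CommRing A] [Algebra ℝ A] (c : RF A)

/-- the Harnack tensor, `u = 1 / (2 t)` -/
def HH (u : A) (a b : Fin 3) : A := H0 c a b + u * c.K a b

lemma HH_symm (u : A) (a b : Fin 3) : HH c u a b = HH c u b a := by
  rw [HH, HH, H0_symm, c.K_symm]

lemma boxHH {u : A} (hD : ∀ a, c.D a u = 0) (ht : c.Dt u = -2 * u * u) (a b : Fin 3) :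
    box c (HH c u a b) = rH c a b + 2 * u * sh c.K c.M a b - 2 * u * u * c.K a b := by
  rw [HH, box_add, box_mul, boxH, boxK]
  simp only [box, hD, ht, map_zero]
  ring

/-- the terms of the second derivative test in the direction `p` -/
def sec (W y η : Fin 3 → A) (p : Fin 3) : A :=
  4 * (bf (fun i j => c.D p (c.T i j)) W η + bf (fun i j => c.D p (c.M i j)) y η) + 2 * bf c.M η η

set_option maxHeartbeats 1000000 in
/-- **the identity of Hamilton** -/
theorem ham {u : A} (hD : ∀ a, c.D a u = 0) (ht : c.Dt u = -2 * u * u) (W y : Fin 3 → A) :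
    zf (fun i j => box c (HH c u i j)) (fun i j => box c (c.T i j)) (fun i j => box c (c.M i j))
      W y - (sec c W y (cx (ad c.K u 0) W) 0 + sec c W y (cx (ad c.K u 1) W) 1 +
        sec c W y (cx (ad c.K u 2) W) 2) =
    2 * dt (fun e => dt (fun a => c.T a e) W + dt (c.M e) y)
        (fun e => dt (fun a => c.T a e) W + dt (c.M e) y) +
      shz (HH c u) c.T c.M (HH c u) c.T c.M W y - 4 * u * (bf (HH c u) W W + bf c.T W y) := by
  simp only [boxHH c hD ht, boxT, boxM]
  simp only [zf, shz, sec, bf, dt, cx, ad, HH, rH, H0, cr, kd, mt, sh, f01, f02, f11, f12, f21, f22,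
    dl_self, dl01, dl02, dl10, dl12, dl20, dl21, one_smul, zero_smul, add_zero,
    M10, M20, M21, K00, K01, K02, K10, K11, K12, K20, K21, K22]
  have h00 := T00 c
  have h01 := T01 c
  have h02 := T02 c
  have h10 := T10 c
  have h11 := T11 c
  have h12 := T12 c
  have h20 := T20 c
  have h21 := T21 c
  have h22 := T22 c
  linear_combination (4 * u * W 0 * y 0) * h00 + (4 * u * W 0 * y 1) * h01 +
    (4 * u * W 0 * y 2) * h02 + (4 * u * W 1 * y 0) * h10 + (4 * u * W 1 * y 1) * h11 +
    (4 * u * W 1 * y 2) * h12 + (4 * u * W 2 * y 0) * h20 + (4 * u * W 2 * y 1) * h21 +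
    (4 * u * W 2 * y 2) * h22

end Vale.Agent.P216H
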