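import Vale.Agent.P216H.Pt

/-! # Harnack: the step at the first null vector -/

set_option linter.unusedSimpArgs false

namespace Vale.Agent.P216H

open Vale.Agent.P216D Vale.Agent.P216D.Fr

/-- the error terms of the perturbation -/
lemma shz_ad (H T M : Fin 3 → Fin 3 → ℝ) (hT : T 0 0 + T 1 1 + T 2 2 = 0) (a b : ℝ)
    (W y : Fin 3 → ℝ) : shz (ad H a) T (ad M b) (ad H a) T (ad M b) W y =
    shz H T M H T M W y + 2 * b * ((H 0 0 + H 1 1 + H 2 2) * dt W W - bf H W W) +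
      2 * a * ((M 0 0 + M 1 1 + M 2 2) * dt W W - bf M W W) + 4 * a * b * dt W W -
      4 * b * bf T y W + 2 * b * ((M 0 0 + M 1 1 + M 2 2) * dt y y - bf M y y) +
      2 * b * b * dt y y := by
  simp only [shz, bf, dt, sh, ad, f01, f02, f11, f12, f21, f22, dl_self, dl01, dl02, dl10, dl12,
    dl20, dl21, one_smul, zero_smul, add_zero]
  linear_combination (4 * b * (W 0 * y 0 + W 1 * y 1 + W 2 * y 2)) * hT

lemma tr_sub_le {X : Fin 3 → Fin 3 → ℝ} {C : ℝ} (h : ∀ a b, |X a b| ≤ C) (v : Fin 3 → ℝ) :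
    (X 0 0 + X 1 1 + X 2 2) * dt v v - bf X v v ≤ 6 * C * dt v v := by
  have h1 : X 0 0 + X 1 1 + X 2 2 ≤ 3 * C := by
    linarith [(abs_le.1 (h 0 0)).2, (abs_le.1 (h 1 1)).2, (abs_le.1 (h 2 2)).2]
  linarith [le_bf h v v, mul_le_mul_of_nonneg_right h1 (dt_nonneg v)]

lemma dt_le {v : Fin 3 → ℝ} {C : ℝ} (h : ∀ a, |v a| ≤ C) : dt v v ≤ 3 * C ^ 2 := by
  have k : ∀ a, v a * v a ≤ C ^ 2 := fun a => by
    rw [← sq, ← sq_abs]; exact pow_le_pow_left₀ (abs_nonneg _) (h a) 2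
  simp only [dt]
  linarith [k 0, k 1, k 2]

lemma ad_symm {X : Fin 3 → Fin 3 → ℝ} (h : ∀ a b, X a b = X b a) (s : ℝ) (a b : Fin 3) :
    ad X s a b = ad X s b a := by
  simp only [ad, h a b, dl, eq_comm]

lemma abs_ad {X : Fin 3 → Fin 3 → ℝ} {C s : ℝ} (h : ∀ a b, |X a b| ≤ C) (hs : 0 ≤ s)
    (a b : Fin 3) : |ad X s a b| ≤ C + s := by
  refine (abs_add_le _ _).trans (add_le_add (h a b) ?_)
  unfold dl
  split_ifs <;> simp [abs_of_nonneg hs, hs]

variable {A : Type*} [CommRing A] [Algebra ℝ A] (c : RF A) (f : A →ₐ[ℝ] ℝ)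

/-- the values of a matrix -/
def mp (X : Fin 3 → Fin 3 → A) (i j : Fin 3) : ℝ := f (X i j)

lemma abs_K {C : ℝ} (h : ∀ a b, |f (c.M a b)| ≤ C) (a b : Fin 3) : |f (c.K a b)| ≤ 2 * C := by
  have h0 : 0 ≤ C := (abs_nonneg _).trans (h 0 0)
  have k : ∀ a b, |f (-c.M a b)| ≤ 2 * C := fun a b => by
    rw [map_neg, abs_neg]; linarith [h a b]
  have l : ∀ a b, |f (c.M a a + c.M b b)| ≤ 2 * C := fun a b => by
    rw [map_add]; linarith [h a a, h b b, abs_add_le (f (c.M a a)) (f (c.M b b))]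
  revert a b
  refine all3 (all3 ?_ ?_ ?_) (all3 ?_ ?_ ?_) (all3 ?_ ?_ ?_) <;>
    simp only [K00, K01, K02, K10, K11, K12, K20, K21, K22, k, l]

/-- the value of the heat operator on the Harnack form, for coefficients with gradient `η` -/
def tst (u : A) (W y : Fin 3 → ℝ) (η : Fin 3 → Fin 3 → ℝ) : ℝ :=
  zf (mp f fun i j => box c (HH c u i j)) (mp f fun i j => box c (c.T i j))
    (mp f fun i j => box c (c.M i j)) W y -
  ∑ p, (4 * (bf (mp f fun i j => c.D p (c.T i j)) W (η p) +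
    bf (mp f fun i j => c.D p (c.M i j)) y (η p)) + 2 * bf (mp f c.M) (η p) (η p))

lemma map_dt (v w : Fin 3 → A) : f (dt v w) = dt (fun i => f (v i)) fun i => f (w i) := by
  simp only [dt, map_add, map_mul]

lemma map_bf (X : Fin 3 → Fin 3 → A) (v w : Fin 3 → A) :
    f (bf X v w) = bf (mp f X) (fun i => f (v i)) fun i => f (w i) := by
  simp only [bf, dt, mp, map_add, map_mul]

lemma mp_sh (X Y : Fin 3 → Fin 3 → A) : mp f (sh X Y) = sh (mp f X) (mp f Y) := by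
  funext a b
  simp only [sh, mp, map_add, map_sub, map_mul]

lemma map_cx (v w : Fin 3 → A) (e : Fin 3) :
    f (cx v w e) = cx (fun i => f (v i)) (fun i => f (w i)) e := by
  simp only [cx, map_sub, map_mul]

lemma map_ad (X : Fin 3 → Fin 3 → A) (u : A) (a b : Fin 3) :
    f (ad X u a b) = ad (mp f X) (f u) a b := by
  simp only [ad, mp, map_add, map_zsmul]

theorem ham_ev {u : A} (hD : ∀ a, c.D a u = 0) (ht : c.Dt u = -2 * u * u) (W y : Fin 3 → ℝ) :
    shz (mp f (HH c u)) (mp f c.T) (mp f c.M) (mp f (HH c u)) (mp f c.T) (mp f c.M) W y -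
      4 * f u * (bf (mp f (HH c u)) W W + bf (mp f c.T) W y) ≤
    tst c f u W y fun p => cx (ad (mp f c.K) (f u) p) W := by
  have h := congrArg f (ham c hD ht (fun i => algebraMap ℝ A (W i)) fun i => algebraMap ℝ A (y i))
  have h1 := dt_nonneg fun e => f (dt (fun a => c.T a e) (fun i => algebraMap ℝ A (W i)) +
    dt (c.M e) fun i => algebraMap ℝ A (y i))
  rw [← map_dt] at h1
  simp only [zf, shz, sec, map_add, map_sub, map_mul, map_ofNat, map_bf, mp_sh, map_cx, map_ad,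
    AlgHom.commutes, Algebra.algebraMap_self, RingHom.id_apply] at h
  have e : (mp f fun i j => c.T j i) = fun i j => mp f c.T j i := rfl
  rw [e] at h
  simp only [tst, Fin.sum_univ_three, zf, shz]
  linarith

/-- **the step at the first null vector** -/
theorem point {u : A} (hD : ∀ a, c.D a u = 0) (ht : c.Dt u = -2 * u * u) {C α ψ β ψ' : ℝ}
    (hu : 0 ≤ f u) (hα : 0 ≤ α) (hψ : 0 ≤ ψ) (bM : ∀ a b, |f (c.M a b)| ≤ C)
    (bT : ∀ a b, |f (c.T a b)| ≤ C) (bH : ∀ a b, |f (H0 c a b)| ≤ C) {W y : Fin 3 → ℝ}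
    (hne : W ≠ 0 ∨ y ≠ 0)
    (psd : ∀ W y, 0 ≤ zf (mp f (HH c u)) (mp f c.T) (mp f c.M) W y + α * dt W W + ψ * dt y y)
    (null : zf (mp f (HH c u)) (mp f c.T) (mp f c.M) W y + α * dt W W + ψ * dt y y = 0)
    (hmp : ∀ η, tst c f u W y η - 2 * ψ * ∑ p, dt (η p) (η p) + β * dt W W + ψ' * dt y y ≤ 0)
    (h1 : ψ * (18 * C + 24 * C * f u + 18 * (2 * C + f u) ^ 2) + α * (12 * C + 4 * ψ) <
      β + 4 * f u * α)
    (h2 : ψ * (18 * C + 2 * ψ) < ψ') : False := by
  simp only [← zf_ad] at psd null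
  have sH : ∀ a b, mp f (HH c u) a b = mp f (HH c u) b a := fun a b => by
    simp only [mp, HH_symm c u a b]
  have sM : ∀ a b, mp f c.M a b = mp f c.M b a := fun a b => by simp only [mp, c.toFr.M_symm a b]
  have e1 := shz_nonneg (ad_symm sH α) (ad_symm sM ψ) psd W y
  have e2 := null_left psd null
  have e3 := ham_ev c f hD ht W y
  have e4 := hmp fun p => cx (ad (mp f c.K) (f u) p) W
  rw [shz_ad _ _ _ (by simp only [mp, ← map_add, trT, map_zero])] at e1
  have e5 : bf (ad (mp f (HH c u)) α) W W = bf (mp f (HH c u)) W W + α * dt W W := by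
    simp only [bf, dt, ad, dl_self, dl01, dl02, dl10, dl12, dl20, dl21, one_smul, zero_smul]
    ring
  have bK := abs_K c f bM
  have e6 : (mp f (HH c u) 0 0 + mp f (HH c u) 1 1 + mp f (HH c u) 2 2) * dt W W -
      bf (mp f (HH c u)) W W ≤ (6 * C + 12 * C * f u) * dt W W := by
    have k1 := tr_sub_le (X := mp f (H0 c)) bH W
    have k2 := mul_le_mul_of_nonneg_left (tr_sub_le (X := mp f c.K) bK W) hu
    simp only [mp, bf, dt, HH, map_add, map_mul] at k1 k2 ⊢
    linarith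
  have e7 := tr_sub_le (X := mp f c.M) bM W
  have e8 := tr_sub_le (X := mp f c.M) bM y
  have e9 := le_bf (X := mp f c.T) bT y W
  have e10 : ∑ p, dt (cx (ad (mp f c.K) (f u) p) W) (cx (ad (mp f c.K) (f u) p) W) ≤
      9 * (2 * C + f u) ^ 2 * dt W W := by
    have k : ∀ p, dt (cx (ad (mp f c.K) (f u) p) W) (cx (ad (mp f c.K) (f u) p) W) ≤
        3 * (2 * C + f u) ^ 2 * dt W W := fun p => (cx_le _ _).trans
      (mul_le_mul_of_nonneg_right (dt_le (abs_ad (X := mp f c.K) bK hu p)) (dt_nonneg W))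
    rw [Fin.sum_univ_three]
    linarith [k 0, k 1, k 2]
  have g6 := mul_le_mul_of_nonneg_left e6 hψ
  have g7 := mul_le_mul_of_nonneg_left e7 hα
  have g8 := mul_le_mul_of_nonneg_left e8 hψ
  have g9 := mul_le_mul_of_nonneg_left e9 hψ
  have g10 := mul_le_mul_of_nonneg_left e10 hψ
  have e11 : bf (mp f (HH c u)) W W + bf (mp f c.T) W y = -(α * dt W W) := by linarith
  rw [e11] at e3
  have fin : (β + 4 * f u * α - (ψ * (18 * C + 24 * C * f u + 18 * (2 * C + f u) ^ 2) +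
      α * (12 * C + 4 * ψ))) * dt W W + (ψ' - ψ * (18 * C + 2 * ψ)) * dt y y ≤ 0 := by
    linarith
  have p1 := mul_nonneg (sub_pos.2 h1).le (dt_nonneg W)
  have p2 := mul_nonneg (sub_pos.2 h2).le (dt_nonneg y)
  rcases hne with h | h
  · exact h (dt_eq_zero ((mul_eq_zero.1 (le_antisymm (by linarith) p1)).resolve_left
      (sub_pos.2 h1).ne'))
  · exact h (dt_eq_zero ((mul_eq_zero.1 (le_antisymm (by linarith) p2)).resolve_left
      (sub_pos.2 h2).ne'))

end Vale.Agent.P216H
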