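import Vale.Agent.P216H.Pt2

/-! # Harnack: the step at the first null vector in terms of test functions; explicit formulas -/

set_option linter.unusedSimpArgs false

namespace Vale.Agent.P216H

open Vale.Agent.P216D Vale.Agent.P216D.Fr

lemma null_right {H T M : Fin 3 → Fin 3 → ℝ} (hM : ∀ a b, M a b = M b a)
    (h : ∀ W y, 0 ≤ zf H T M W y) {W y : Fin 3 → ℝ} (h0 : zf H T M W y = 0) (z : Fin 3 → ℝ) :
    bf T W z + bf M y z = 0 := by
  have h1 : ∀ s : ℝ, 0 ≤ bf M z z * (s * s) + 2 * (bf T W z + bf M y z) * s + 0 := fun s => by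
    have := h W (y + s • z)
    simp only [zf, bf, dt, Pi.smul_apply, Pi.add_apply, smul_eq_mul, hM 1 0, hM 2 0,
      hM 2 1] at this h0 ⊢
    linear_combination this + h0
  have h2 := discrim_le_zero h1
  rw [discrim] at h2
  nlinarith

variable {A : Type*} [CommRing A] [Algebra ℝ A] (c : RF A) (f : A →ₐ[ℝ] ℝ)

lemma box_alg (r : ℝ) : box c (algebraMap ℝ A r) = 0 := by
  simp only [box, Derivation.map_algebraMap, map_zero, add_zero, sub_zero]

lemma box_two (x : A) : box c (2 * x) = 2 * box c x := by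
  rw [two_mul, box_add, two_mul]

lemma box_bf (X : Fin 3 → Fin 3 → A) (v w : Fin 3 → A) : box c (bf X v w) =
    bf (fun i j => box c (X i j)) v w + bf X (fun i => box c (v i)) w +
      bf X v (fun i => box c (w i)) -
    2 * ∑ p, (bf (fun i j => c.D p (X i j)) (fun i => c.D p (v i)) w +
      bf (fun i j => c.D p (X i j)) v (fun i => c.D p (w i)) +
      bf X (fun i => c.D p (v i)) fun i => c.D p (w i)) := by
  simp only [bf, dt, Fin.sum_univ_three, box_add, box_mul, der_mul]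
  simp only [map_add, der_mul]
  ring

lemma box_dt (v w : Fin 3 → A) : box c (dt v w) = dt (fun i => box c (v i)) w +
    dt v (fun i => box c (w i)) - 2 * ∑ p, dt (fun i => c.D p (v i)) fun i => c.D p (w i) := by
  simp only [dt, Fin.sum_univ_three, box_add, box_mul]
  ring

lemma box_zf (H : Fin 3 → Fin 3 → A) (α : A) {ψ : A} (hψ : ∀ a, c.D a ψ = 0) (W : Fin 3 → ℝ)
    (y : Fin 3 → A) :
    box c (zf H c.T c.M (fun i => algebraMap ℝ A (W i)) y +
      α * dt (fun i => algebraMap ℝ A (W i)) (fun i => algebraMap ℝ A (W i)) + ψ * dt y y) =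
    zf (fun i j => box c (H i j)) (fun i j => box c (c.T i j)) (fun i j => box c (c.M i j))
      (fun i => algebraMap ℝ A (W i)) y -
    ∑ p, (sec c (fun i => algebraMap ℝ A (W i)) y (fun i => c.D p (y i)) p +
      2 * ψ * dt (fun i => c.D p (y i)) (fun i => c.D p (y i))) +
    box c α * dt (fun i => algebraMap ℝ A (W i)) (fun i => algebraMap ℝ A (W i)) +
    c.Dt ψ * dt y y + 2 * (bf c.T (fun i => algebraMap ℝ A (W i)) (fun i => box c (y i)) +
      (bf c.M y (fun i => box c (y i)) + ψ * dt y fun i => box c (y i))) := by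
  have h1 : box c ψ = c.Dt ψ := by simp only [box, hψ, map_zero, add_zero, sub_zero]
  have h2 : ∀ p, c.D p (dt (fun i => algebraMap ℝ A (W i)) fun i => algebraMap ℝ A (W i)) = 0 :=
    fun p => by simp only [dt, ← map_mul, ← map_add, Derivation.map_algebraMap]
  rw [zf, box_add, box_add, box_add, box_add, box_two, box_mul, box_mul]
  simp only [box_bf, box_dt, box_alg, h1, h2, hψ, Derivation.map_algebraMap]
  simp only [zf, sec, bf, dt, Fin.sum_univ_three, M10, M20, M21]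
  ring

/-- **the step at the first null vector**, with test functions -/
theorem point2 {u α ψ : A} (hD : ∀ a, c.D a u = 0) (ht : c.Dt u = -2 * u * u)
    (hψD : ∀ a, c.D a ψ = 0) {x : Fin 3 → A} (hx : ∀ a, f (x a) = 0)
    (hxD : ∀ a b, f (c.D b (x a)) = dl a b) {C : ℝ}
    (hu : 0 ≤ f u) (hα : 0 ≤ f α) (hψ : 0 ≤ f ψ) (bM : ∀ a b, |f (c.M a b)| ≤ C)
    (bT : ∀ a b, |f (c.T a b)| ≤ C) (bH : ∀ a b, |f (H0 c a b)| ≤ C) {W y : Fin 3 → ℝ}
    (hne : W ≠ 0 ∨ y ≠ 0)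
    (psd : ∀ W y, 0 ≤ zf (mp f (HH c u)) (mp f c.T) (mp f c.M) W y + f α * dt W W + f ψ * dt y y)
    (null : zf (mp f (HH c u)) (mp f c.T) (mp f c.M) W y + f α * dt W W + f ψ * dt y y = 0)
    (hmin : ∀ z : Fin 3 → A, (∀ i, f (z i) = y i) →
      f (box c (zf (HH c u) c.T c.M (fun i => algebraMap ℝ A (W i)) z +
      α * dt (fun i => algebraMap ℝ A (W i)) (fun i => algebraMap ℝ A (W i)) + ψ * dt z z)) ≤ 0)
    (h1 : f ψ * (18 * C + 24 * C * f u + 18 * (2 * C + f u) ^ 2) + f α * (12 * C + 4 * f ψ) <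
      f (box c α) + 4 * f u * f α)
    (h2 : f ψ * (18 * C + 2 * f ψ) < f (c.Dt ψ)) : False := by
  refine point c f hD ht hu hα hψ bM bT bH hne psd null (fun η => ?_) h1 h2
  set z : Fin 3 → A := fun i => algebraMap ℝ A (y i) + ∑ p, η p i • x p with hz
  have e1 : ∀ i, f (z i) = y i := fun i => by simp [hz, hx]
  have e2 : ∀ p i, f (c.D p (z i)) = η p i := by
    refine all3 ?_ ?_ ?_ <;> intro i <;> simp [hz, hxD, Fin.sum_univ_three]
  have h := hmin z e1
  simp only [← zf_ad] at psd null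
  have e3 := null_right (ad_symm (fun a b => by simp only [mp, c.toFr.M_symm a b]) _) psd null
    fun i => f (box c (z i))
  have e4 : bf (ad (mp f c.M) (f ψ)) y (fun i => f (box c (z i))) =
      bf (mp f c.M) y (fun i => f (box c (z i))) + f ψ * dt y fun i => f (box c (z i)) := by
    simp only [bf, dt, ad, dl_self, dl01, dl02, dl10, dl12, dl20, dl21, one_smul, zero_smul]
    ring
  rw [box_zf c _ _ hψD] at h
  simp only [zf, sec, Fin.sum_univ_three, map_add, map_sub, map_mul, map_ofNat, map_bf, map_dt,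
    AlgHom.commutes, Algebra.algebraMap_self, RingHom.id_apply, e1, e2] at h
  simp only [tst, Fin.sum_univ_three, zf]
  linarith

/-! ### explicit formulas -/

section formulas

variable {R : Type*} [CommRing R]

/-- the Ricci tensor in terms of the curvature operator -/
def kp (m : Fin 3 → Fin 3 → R) (a b : Fin 3) : R := dl a b • (m 0 0 + m 1 1 + m 2 2) - m a b

/-- the mixed part in terms of the derivative of the curvature operator -/
def tp (m : Fin 3 → Fin 3 → Fin 3 → R) (a e : Fin 3) : R := -cr (fun p q => m p q e) a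

/-- the steady Harnack tensor in terms of the curvature operator and its second derivative -/
def hp (m : Fin 3 → Fin 3 → R) (n : Fin 3 → Fin 3 → Fin 3 → Fin 3 → R) (a b : Fin 3) : R :=
  sh (kp m) m a b - cr (fun p q => tp (n p) b q) a

/-- the Harnack form -/
def zm (m : Fin 3 → Fin 3 → R) (m1 : Fin 3 → Fin 3 → Fin 3 → R)
    (m2 : Fin 3 → Fin 3 → Fin 3 → Fin 3 → R) (u : R) (W y : Fin 3 → R) : R :=
  zf (fun a b => hp m m2 a b + u * kp m a b) (tp m1) m W y

/-- the trace of the form -/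
lemma zf_trace (H T : Fin 3 → Fin 3 → R) {M : Fin 3 → Fin 3 → R} (hM : ∀ a b, M a b = M b a)
    (X : Fin 3 → R) : zf H T M ![1, 0, 0] (cx X ![1, 0, 0]) + zf H T M ![0, 1, 0] (cx X ![0, 1, 0])
      + zf H T M ![0, 0, 1] (cx X ![0, 0, 1]) =
    H 0 0 + H 1 1 + H 2 2 + 2 * dt (cr T) X + bf (kp M) X X := by
  simp only [zf, bf, dt, cx, cr, kp, f01, f02, f11, f12, f21, f22, Matrix.cons_val_zero,
    Matrix.cons_val_one, Matrix.cons_val, dl_self, dl01, dl02, dl10, dl12, dl20, dl21, one_smul,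
    zero_smul, hM 1 0, hM 2 0, hM 2 1]
  ring

end formulas

lemma K_eq : c.K = kp c.M := by
  funext a b
  rw [c.ric]; rfl

lemma T_eq : c.T = tp fun p i j => c.D p (c.M i j) := by
  funext a b
  revert a b
  refine all3 (all3 ?_ ?_ ?_) (all3 ?_ ?_ ?_) (all3 ?_ ?_ ?_) <;>
  simp only [tp, cr, f01, f02, f11, f12, f21, f22, T00, T01, T02, T10, T11, T12, T20, T21, T22,
    M10, M20, M21] <;>
  ring

lemma H0_eq : H0 c = hp c.M fun p q i j => c.D p (c.D q (c.M i j)) := by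
  funext a b
  simp only [H0, hp, K_eq, T_eq, tp, cr, map_neg, map_sub]

lemma mp_K : mp f c.K = kp (mp f c.M) := by
  funext a b
  simp only [K_eq, mp, kp, map_sub, map_zsmul, map_add]

lemma mp_T : mp f c.T = tp fun p i j => f (c.D p (c.M i j)) := by
  funext a b
  simp only [T_eq, mp, tp, cr, map_neg, map_sub]

lemma mp_H0 : mp f (H0 c) = hp (mp f c.M) fun p q i j => f (c.D p (c.D q (c.M i j))) := by
  funext a b
  simp only [H0_eq, mp, hp, tp, cr, sh, kp, map_neg, map_sub, map_add, map_mul, map_zsmul]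

lemma zf_mp (u : A) (W y : Fin 3 → ℝ) : zf (mp f (HH c u)) (mp f c.T) (mp f c.M) W y =
    zm (mp f c.M) (fun p i j => f (c.D p (c.M i j))) (fun p q i j => f (c.D p (c.D q (c.M i j))))
      (f u) W y := by
  rw [zm, ← mp_T, ← mp_H0, ← mp_K]
  congr 1
  funext a b
  simp only [mp, HH, map_add, map_mul]

/-- the trace Harnack inequality from the matrix Harnack inequality -/
lemma trace_nonneg (u : A) (h : ∀ W y, 0 ≤ zf (mp f (HH c u)) (mp f c.T) (mp f c.M) W y)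
    (X : Fin 3 → ℝ) : 0 ≤ f (c.Dt c.toFr.S) + 2 * f u * f c.toFr.S +
      2 * dt (fun a => f (c.D a c.toFr.S)) X + bf (mp f c.K) X X := by
  have h1 := zf_trace (mp f (HH c u)) (mp f c.T) (M := mp f c.M)
    (fun a b => by simp only [mp, c.toFr.M_symm a b]) X
  have h2 : cr (mp f c.T) = fun a => f (c.D a c.toFr.S) := by
    funext a
    simp only [← crT, cr, mp, map_sub]
  have h3 := congrArg f (trH0 c)
  rw [h2, ← mp_K] at h1
  simp only [mp, HH, K00, K11, K22, map_add, map_mul] at h1 h3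
  simp only [S, map_add] at h1 h3 ⊢
  linarith [h ![1, 0, 0] (cx X ![1, 0, 0]), h ![0, 1, 0] (cx X ![0, 1, 0]),
    h ![0, 0, 1] (cx X ![0, 0, 1])]

/-! ### bounds -/

lemma abs_cr {X : Fin 3 → Fin 3 → ℝ} {C : ℝ} (h : ∀ a b, |X a b| ≤ C) (a : Fin 3) :
    |cr X a| ≤ 2 * C := by
  linarith [abs_sub (X (a + 1) (a + 2)) (X (a + 2) (a + 1)), h (a + 1) (a + 2), h (a + 2) (a + 1),
    show |cr X a| = |X (a + 1) (a + 2) - X (a + 2) (a + 1)| from rfl]

lemma abs_tp {m : Fin 3 → Fin 3 → Fin 3 → ℝ} {C : ℝ} (h : ∀ p a b, |m p a b| ≤ C) (a e : Fin 3) :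
    |tp m a e| ≤ 2 * C := by
  rw [tp, abs_neg]
  exact abs_cr (fun p q => h p q e) a

lemma abs_kp {m : Fin 3 → Fin 3 → ℝ} {C : ℝ} (h : ∀ a b, |m a b| ≤ C) (a b : Fin 3) :
    |kp m a b| ≤ 2 * C := by
  have k := fun a b => abs_le.1 (h a b)
  revert a b
  refine all3 (all3 ?_ ?_ ?_) (all3 ?_ ?_ ?_) (all3 ?_ ?_ ?_) <;>
    simp only [kp, dl_self, dl01, dl02, dl10, dl12, dl20, dl21, one_smul, zero_smul, abs_le] <;>
    constructor <;>
    linarith [k 0 0, k 0 1, k 0 2, k 1 0, k 1 1, k 1 2, k 2 0, k 2 1, k 2 2, (k 0 0).1, (k 0 0).2,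
      (k 1 1).1, (k 1 1).2, (k 2 2).1, (k 2 2).2, (k 0 1).1, (k 0 1).2, (k 0 2).1, (k 0 2).2,
      (k 1 0).1, (k 1 0).2, (k 1 2).1, (k 1 2).2, (k 2 0).1, (k 2 0).2, (k 2 1).1, (k 2 1).2]

lemma abs_sh {X N : Fin 3 → Fin 3 → ℝ} {C D : ℝ} (h : ∀ a b, |X a b| ≤ C)
    (k : ∀ a b, |N a b| ≤ D) (a b : Fin 3) : |sh X N a b| ≤ 4 * (C * D) := by
  have l : ∀ i j r s, -(C * D) ≤ X i j * N r s ∧ X i j * N r s ≤ C * D := fun i j r s =>
    abs_le.1 (by
      rw [abs_mul]; exact mul_le_mul (h i j) (k r s) (abs_nonneg _) ((abs_nonneg _).trans (h i j)))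
  rw [sh, abs_le]
  obtain ⟨a1, a2⟩ := l (a + 2) (b + 2) (a + 1) (b + 1)
  obtain ⟨a3, a4⟩ := l (a + 2) (b + 1) (a + 1) (b + 2)
  obtain ⟨a5, a6⟩ := l (a + 1) (b + 2) (a + 2) (b + 1)
  obtain ⟨a7, a8⟩ := l (a + 1) (b + 1) (a + 2) (b + 2)
  constructor <;> linarith

lemma abs_hp {m : Fin 3 → Fin 3 → ℝ} {n : Fin 3 → Fin 3 → Fin 3 → Fin 3 → ℝ} {C : ℝ}
    (h : ∀ a b, |m a b| ≤ C) (k : ∀ p q a b, |n p q a b| ≤ C) (a b : Fin 3) :
    |hp m n a b| ≤ 8 * C ^ 2 + 4 * C := by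
  have h1 := abs_sh (abs_kp h) h a b
  have h2 := abs_cr (X := fun p q => tp (n p) b q) (fun p q => abs_tp (k p) b q) a
  have h3 := abs_sub (sh (kp m) m a b) (cr (fun p q => tp (n p) b q) a)
  rw [hp]
  linarith

lemma kp_nonneg {M : Fin 3 → Fin 3 → ℝ} (hM : ∀ a b, M a b = M b a) (h : ∀ y, 0 ≤ bf M y y)
    (X : Fin 3 → ℝ) : 0 ≤ bf (kp M) X X := by
  have := zf_trace 0 0 hM X
  simp only [zf, bf, dt, cr, Pi.zero_apply] at this
  have h1 := h (cx X ![1, 0, 0])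
  have h2 := h (cx X ![0, 1, 0])
  have h3 := h (cx X ![0, 0, 1])
  simp only [bf, dt] at h1 h2 h3 ⊢
  linarith

lemma kp_le {M : Fin 3 → Fin 3 → ℝ} (h : ∀ y, 0 ≤ bf M y y) (X : Fin 3 → ℝ) :
    bf (kp M) X X ≤ (M 0 0 + M 1 1 + M 2 2) * dt X X := by
  have := h X
  simp only [bf, dt, kp, dl_self, dl01, dl02, dl10, dl12, dl20, dl21, one_smul, zero_smul] at this ⊢
  linarith

lemma term_ge {x C ψ : ℝ} (h : |x| ≤ C) (a b : ℝ) :
    -(6 * C ^ 2 * (a * a) + ψ ^ 2 / 6 * (b * b)) ≤ ψ * (2 * (a * (x * b))) := by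
  have h1 : x ^ 2 ≤ C ^ 2 := by rw [← sq_abs]; exact pow_le_pow_left₀ (abs_nonneg _) h 2
  nlinarith [sq_nonneg (6 * x * a + ψ * b), mul_le_mul_of_nonneg_right h1 (mul_self_nonneg a)]

/-- the perturbed form is positive when the perturbation is large -/
lemma crude {H T M : Fin 3 → Fin 3 → ℝ} {C u α ψ : ℝ} (hM : ∀ a b, M a b = M b a)
    (h0 : ∀ y, 0 ≤ bf M y y) (bH : ∀ a b, |H a b| ≤ C) (bT : ∀ a b, |T a b| ≤ C) (hu : 0 ≤ u)
    (hψ : 0 < ψ) (h : 3 * C * ψ + 18 * C ^ 2 < ψ * α) {W y : Fin 3 → ℝ} (hne : W ≠ 0 ∨ y ≠ 0) :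
    0 < zf (fun a b => H a b + u * kp M a b) T M W y + α * dt W W + ψ * dt y y := by
  have e1 : bf (fun a b => H a b + u * kp M a b) W W = bf H W W + u * bf (kp M) W W := by
    simp only [bf, dt]; ring
  have e2 : -(18 * C ^ 2 * dt W W + ψ ^ 2 / 2 * dt y y) ≤ ψ * (2 * bf T W y) := by
    have k := fun a b => term_ge (ψ := ψ) (bT a b) (W a) (y b)
    simp only [bf, dt]
    linarith [k 0 0, k 0 1, k 0 2, k 1 0, k 1 1, k 1 2, k 2 0, k 2 1, k 2 2]
  have e3 := mul_le_mul_of_nonneg_left (le_bf bH W W) hψ.le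
  have e4 := mul_nonneg hψ.le (mul_nonneg hu (kp_nonneg hM h0 W))
  have e5 := mul_nonneg hψ.le (h0 y)
  have p1 := mul_nonneg (sub_pos.2 h).le (dt_nonneg W)
  have p2 := mul_nonneg (by positivity : 0 ≤ ψ ^ 2 / 2) (dt_nonneg y)
  have p3 : 0 < (ψ * α - (3 * C * ψ + 18 * C ^ 2)) * dt W W + ψ ^ 2 / 2 * dt y y := by
    rcases hne with k | k
    · linarith [mul_pos (sub_pos.2 h) ((dt_nonneg W).lt_of_ne' fun l => k (dt_eq_zero l))]
    · linarith [mul_pos (by positivity : 0 < ψ ^ 2 / 2)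
        ((dt_nonneg y).lt_of_ne' fun l => k (dt_eq_zero l))]
  refine pos_of_mul_pos_right (a := ψ) ?_ hψ.le
  rw [zf, e1]
  linarith

end Vale.Agent.P216H
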