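import Vale.Agent.P216H.Id3
import Mathlib.Analysis.InnerProductSpace.Positive
import Mathlib.Algebra.QuadraticDiscriminant

/-! # Harnack: the quadratic form and its algebra -/

set_option linter.unusedSimpArgs false

namespace Vale.Agent.P216H

open Vale.Agent.P216D Vale.Agent.P216D.Fr

section ring

variable {R : Type*} [CommRing R]

/-- the scalar product -/
def dt (v w : Fin 3 → R) : R := v 0 * w 0 + v 1 * w 1 + v 2 * w 2

/-- the bilinear form of a matrix -/
def bf (X : Fin 3 → Fin 3 → R) (v w : Fin 3 → R) : R :=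
  v 0 * dt (X 0) w + v 1 * dt (X 1) w + v 2 * dt (X 2) w

/-- the cross product -/
def cx (v w : Fin 3 → R) (e : Fin 3) : R := v (e + 1) * w (e + 2) - v (e + 2) * w (e + 1)

/-- the Harnack quadratic form -/
def zf (H T M : Fin 3 → Fin 3 → R) (W y : Fin 3 → R) : R := bf H W W + 2 * bf T W y + bf M y y

/-- the polarised Lie algebra square -/
def shz (H T M H' T' M' : Fin 3 → Fin 3 → R) (W y : Fin 3 → R) : R :=
  bf (sh H M') W W + bf (sh M H') W W + 2 * bf (sh T fun i j => T' j i) W W +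
    2 * bf (sh T M') W y + 2 * bf (sh T' M) W y + bf (sh M M') y y

/-- `X + a 1` -/
def ad (X : Fin 3 → Fin 3 → R) (a : R) (i j : Fin 3) : R := X i j + dl i j • a

lemma shz_one {H T M : Fin 3 → Fin 3 → R} (hM : ∀ a b, M a b = M b a) (X Y W y : Fin 3 → R) :
    shz H T M (fun i j => X i * X j) (fun i j => X i * Y j) (fun i j => Y i * Y j) W y =
      zf H T M (cx W Y) (cx y Y + cx W X) := by
  simp only [shz, zf, bf, dt, sh, cx, f01, f02, f11, f12, f21, f22, Pi.add_apply, hM 1 0, hM 2 0,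
    hM 2 1]
  ring

lemma shz_add (H T M H' T' M' H'' T'' M'' : Fin 3 → Fin 3 → R) (W y : Fin 3 → R) :
    shz H T M (H' + H'') (T' + T'') (M' + M'') W y =
      shz H T M H' T' M' W y + shz H T M H'' T'' M'' W y := by
  simp only [shz, bf, dt, sh, Pi.add_apply]
  ring

lemma shz_zero (H T M : Fin 3 → Fin 3 → R) (W y : Fin 3 → R) : shz H T M 0 0 0 W y = 0 := by
  simp [shz, bf, dt, sh]

lemma shz_sum {ι : Type*} (s : Finset ι) (H T M : Fin 3 → Fin 3 → R)
    (H' T' M' : ι → Fin 3 → Fin 3 → R) (W y : Fin 3 → R) :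
    shz H T M (∑ k ∈ s, H' k) (∑ k ∈ s, T' k) (∑ k ∈ s, M' k) W y =
      ∑ k ∈ s, shz H T M (H' k) (T' k) (M' k) W y := by
  classical
  induction s using Finset.induction_on with
  | empty => simp [shz_zero]
  | insert a s ha ih => simp only [Finset.sum_insert ha, shz_add, ih]

lemma zf_ad (H T M : Fin 3 → Fin 3 → R) (a b : R) (W y : Fin 3 → R) :
    zf (ad H a) T (ad M b) W y = zf H T M W y + a * dt W W + b * dt y y := by
  simp only [zf, bf, dt, ad, dl_self, dl01, dl02, dl10, dl12, dl20, dl21, one_smul, zero_smul]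
  ring

end ring

/-- a nonnegative form is a sum of squares -/
lemma exists_sq {H T M : Fin 3 → Fin 3 → ℝ} (hH : ∀ a b, H a b = H b a)
    (hM : ∀ a b, M a b = M b a) (h : ∀ W y, 0 ≤ zf H T M W y) :
    ∃ (m : ℕ) (X Y : Fin m → Fin 3 → ℝ), H = ∑ k, (fun i j => X k i * X k j) ∧
      T = ∑ k, (fun i j => X k i * Y k j) ∧ M = ∑ k, (fun i j => Y k i * Y k j) := by
  have hp : (Matrix.fromBlocks (Matrix.of H) (Matrix.of T) (Matrix.of T).transpose
      (Matrix.of M)).PosSemidef := by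
    refine .of_dotProduct_mulVec_nonneg ?_ fun x => ?_
    · ext (i | i) (j | j) <;> simp [hH i j, hM i j]
    · refine (h (fun i => x (.inl i)) (fun i => x (.inr i))).trans_eq ?_
      simp [dotProduct, Matrix.mulVec, Fintype.sum_sum_type, Fin.sum_univ_three, zf, bf, dt]
      ring
  obtain ⟨m, v, hv⟩ := Matrix.posSemidef_iff_eq_sum_vecMulVec.1 hp
  refine ⟨m, fun k i => v k (.inl i), fun k i => v k (.inr i), ?_, ?_, ?_⟩ <;> ext i j
  · simpa [Matrix.sum_apply, Matrix.vecMulVec_apply] using congrFun (congrFun hv (.inl i)) (.inl j)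
  · simpa [Matrix.sum_apply, Matrix.vecMulVec_apply] using congrFun (congrFun hv (.inl i)) (.inr j)
  · simpa [Matrix.sum_apply, Matrix.vecMulVec_apply] using congrFun (congrFun hv (.inr i)) (.inr j)

/-- the Lie algebra square of a nonnegative form is nonnegative -/
lemma shz_nonneg {H T M : Fin 3 → Fin 3 → ℝ} (hH : ∀ a b, H a b = H b a)
    (hM : ∀ a b, M a b = M b a) (h : ∀ W y, 0 ≤ zf H T M W y) (W y : Fin 3 → ℝ) :
    0 ≤ shz H T M H T M W y := by
  obtain ⟨m, X, Y, h1, h2, h3⟩ := exists_sq hH hM h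
  have := shz_sum Finset.univ H T M (fun k i j => X k i * X k j) (fun k i j => X k i * Y k j)
    (fun k i j => Y k i * Y k j) W y
  rw [← h1, ← h2, ← h3] at this
  rw [this]
  exact Finset.sum_nonneg fun k _ => by rw [shz_one hM]; exact h _ _

/-- a null vector of a nonnegative form lies in the kernel -/
lemma null_left {H T M : Fin 3 → Fin 3 → ℝ} (h : ∀ W y, 0 ≤ zf H T M W y) {W y : Fin 3 → ℝ}
    (h0 : zf H T M W y = 0) : bf H W W + bf T W y = 0 := by
  have h1 : ∀ s : ℝ, 0 ≤ bf H W W * (s * s) + 2 * (bf H W W + bf T W y) * s + 0 := fun s => by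
    have := h ((1 + s) • W) y
    simp only [zf, bf, dt, Pi.smul_apply, smul_eq_mul] at this h0 ⊢
    linear_combination this + h0
  have h2 := discrim_le_zero h1
  rw [discrim] at h2
  nlinarith

lemma dt_nonneg (v : Fin 3 → ℝ) : 0 ≤ dt v v := by
  simp only [dt]; nlinarith [mul_self_nonneg (v 0), mul_self_nonneg (v 1), mul_self_nonneg (v 2)]

lemma dt_eq_zero {v : Fin 3 → ℝ} (h : dt v v = 0) : v = 0 := by
  simp only [dt] at h
  have := mul_self_nonneg (v 0)
  have := mul_self_nonneg (v 1)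
  have := mul_self_nonneg (v 2)
  funext i
  revert i
  refine all3 ?_ ?_ ?_ <;> exact mul_self_eq_zero.1 (by linarith)

lemma term_le {x c : ℝ} (h : |x| ≤ c) (a b : ℝ) : a * (x * b) ≤ c / 2 * (a * a + b * b) := by
  obtain ⟨h1, h2⟩ := abs_le.1 h
  nlinarith [mul_nonneg (sub_nonneg.2 h2) (sq_nonneg (a + b)),
    mul_nonneg (sub_nonneg.2 h1) (sq_nonneg (a - b))]

lemma bf_le {X : Fin 3 → Fin 3 → ℝ} {c : ℝ} (h : ∀ a b, |X a b| ≤ c) (v w : Fin 3 → ℝ) :
    bf X v w ≤ 3 / 2 * c * (dt v v + dt w w) := by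
  simp only [bf, dt]
  linarith [term_le (h 0 0) (v 0) (w 0), term_le (h 0 1) (v 0) (w 1), term_le (h 0 2) (v 0) (w 2),
    term_le (h 1 0) (v 1) (w 0), term_le (h 1 1) (v 1) (w 1), term_le (h 1 2) (v 1) (w 2),
    term_le (h 2 0) (v 2) (w 0), term_le (h 2 1) (v 2) (w 1), term_le (h 2 2) (v 2) (w 2)]

lemma bf_neg (X : Fin 3 → Fin 3 → ℝ) (v w : Fin 3 → ℝ) : bf (-X) v w = -bf X v w := by
  simp only [bf, dt, Pi.neg_apply]; ring

lemma le_bf {X : Fin 3 → Fin 3 → ℝ} {c : ℝ} (h : ∀ a b, |X a b| ≤ c) (v w : Fin 3 → ℝ) :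
    -(3 / 2 * c * (dt v v + dt w w)) ≤ bf X v w := by
  have := bf_le (X := -X) (c := c) (fun a b => by simpa using h a b) v w
  rw [bf_neg] at this
  linarith

lemma cx_le (v w : Fin 3 → ℝ) : dt (cx v w) (cx v w) ≤ dt v v * dt w w := by
  simp only [dt, cx, f01, f02, f11, f12, f21, f22]
  nlinarith [sq_nonneg (v 0 * w 0 + v 1 * w 1 + v 2 * w 2)]

end Vale.Agent.P216H
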