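import Vale.Agent.P216H.Bar
import Vale.Agent.P216D.ModRG
import Vale.Agent.P216BF.Curv
import Vale.Agent.P216R.Flow

/-! # Harnack: the quadratic form on a manifold -/

open scoped Manifold ContDiff Topology
open Set Filter

set_option maxSynthPendingDepth 3
set_option linter.unusedSimpArgs false

noncomputable section

namespace Vale.Agent.P216H

open Vale.Agent.P216R Vale.Agent.P216D

/-- the components of the derivatives of the curvature operator -/
def mk (R : (k : ℕ) → (Fin (k + 4) → E3) → ℝ) (e : Fin 3 → E3) (k : ℕ) (w : Fin k → Fin 3)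
    (c d : Fin 3) : ℝ := R k fun s => e (Loc.ix k w ![c + 1, c + 2, d + 2, d + 1] s)

/-- the Harnack form in a frame -/
def zR (R : (k : ℕ) → (Fin (k + 4) → E3) → ℝ) (e : Fin 3 → E3) (u : ℝ) (W y : Fin 3 → ℝ) : ℝ :=
  zm (mk R e 0 ![]) (fun p => mk R e 1 ![p]) (fun p q => mk R e 2 ![p, q]) u W y

lemma exists_cx (y : Fin 3 → ℝ) : ∃ A B, cx A B = y := by
  rcases eq_or_ne (y 2) 0 with h | h
  · refine ⟨![0, 0, 1], ![y 1, -y 0, 0], funext (all3 ?_ ?_ ?_)⟩ <;>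
      simp [cx, f01, f02, f11, f12, f21, f22, h]
  · refine ⟨![1, 0, -y 0 / y 2], ![0, y 2, -y 1], funext (all3 ?_ ?_ ?_)⟩ <;>
      simp [cx, f01, f02, f11, f12, f21, f22, h]

lemma cont_zR {X : Type*} [TopologicalSpace X] {S : Set X} {x : X}
    {R : X → (k : ℕ) → (Fin (k + 4) → E3) → ℝ} {e : X → Fin 3 → E3} {u : X → ℝ}
    {W y : X → Fin 3 → ℝ} (hR : ∀ k (j : Fin (k + 4) → Fin 3),
      ContinuousWithinAt (fun q => R q k fun s => e q (j s)) S x) (hu : ContinuousWithinAt u S x)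
    (hW : ContinuousWithinAt W S x) (hy : ContinuousWithinAt y S x) :
    ContinuousWithinAt (fun q => zR (R q) (e q) (u q) (W q) (y q)) S x := by
  have h1 : ∀ k w c d, ContinuousWithinAt (fun q => mk (R q) (e q) k w c d) S x :=
    fun k w c d => hR k _
  have h2 := continuousWithinAt_pi.1 hW
  have h3 := continuousWithinAt_pi.1 hy
  simp only [zR, zm, zf, bf, dt, hp, tp, kp, cr, sh, zsmul_eq_mul]
  fun_prop

lemma zR_smul (R : (k : ℕ) → (Fin (k + 4) → E3) → ℝ) (e : Fin 3 → E3) (u s : ℝ)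
    (W y : Fin 3 → ℝ) : zR R e u (s • W) (s • y) = s ^ 2 * zR R e u W y := by
  simp only [zR, zm, zf, bf, dt, Pi.smul_apply, smul_eq_mul]
  ring

variable {M : Type} [TopologicalSpace M] [ChartedSpace E3 M] [IsManifold 𝓘(ℝ, E3) ∞ M]
  {N : Type} [TopologicalSpace N] [ChartedSpace E3 N] [IsManifold 𝓘(ℝ, E3) ∞ N]

/-- the perturbed form -/
def zP (g : Ten E3 M) (x : M) (u α ψ : ℝ) (e : Fin 3 → E3) (w : (Fin 3 → ℝ) × (Fin 3 → ℝ)) : ℝ :=
  zR (fun k => Rm g k x) e u w.1 w.2 + α * dt w.1 w.1 + ψ * dt w.2 w.2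

/-- the perturbed form is positive -/
def PZ (g : Ten E3 M) (x : M) (u α ψ : ℝ) : Prop :=
  ∀ e, ON (g x) e → ∀ w, w ≠ 0 → 0 < zP g x u α ψ e w

/-- the perturbed form is nonnegative -/
def NZ (g : Ten E3 M) (x : M) (u α ψ : ℝ) : Prop := ∀ e, ON (g x) e → ∀ w, 0 ≤ zP g x u α ψ e w

section static

variable {g : Ten E3 M} {U : Set M} {x : M} {u α ψ C : ℝ} {e : Fin 3 → E3}

omit [IsManifold 𝓘(ℝ, E3) ∞ M] in
lemma zP_smul (s : ℝ) (w : (Fin 3 → ℝ) × (Fin 3 → ℝ)) :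
    zP g x u α ψ e (s • w) = s ^ 2 * zP g x u α ψ e w := by
  simp only [zP, Prod.smul_fst, Prod.smul_snd, zR_smul, dt, Pi.smul_apply, smul_eq_mul]
  ring

omit [IsManifold 𝓘(ℝ, E3) ∞ M] in
lemma PZ.nz (h : PZ g x u α ψ) : NZ g x u α ψ := fun e he w => by
  rcases eq_or_ne w 0 with rfl | k
  · simpa using (zP_smul (g := g) (x := x) (u := u) (α := α) (ψ := ψ) (e := e) 0 0).ge
  · exact (h e he w k).le

omit [IsManifold 𝓘(ℝ, E3) ∞ M] in
lemma NZ.mono (h : NZ g x u α ψ) {β : ℝ} (k : α ≤ β) : NZ g x u β ψ := fun e he w => by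
  have := h e he w
  simp only [zP] at this ⊢
  linarith [mul_le_mul_of_nonneg_right k (dt_nonneg w.1)]

lemma li_zP {h : Ten E3 N} {f : N → M} {z : N} (H : LI h g f z) (w : (Fin 3 → ℝ) × (Fin 3 → ℝ)) :
    zP h z u α ψ e w = zP g (f z) u α ψ (fun a => md E3 f z (e a)) w := by
  simp only [zP, zR]
  congr 3 <;> ext <;> exact H.Rm _ _

lemma li_all {h : Ten E3 N} {f : N → M} {z : N} (H : LI h g f z) {P : (Fin 3 → E3) → Prop} :
    (∀ e, ON (h z) e → P fun a => md E3 f z (e a)) ↔ ∀ e, ON (g (f z)) e → P e := by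
  refine ⟨fun k e he => ?_, fun k e he => k _ fun a b => by rw [← H.apply, he]⟩
  choose w hw using fun i => H.surj (e i)
  simpa only [hw] using k w fun a b => by rw [H.apply, hw, hw, he]

lemma li_PZ {h : Ten E3 N} {f : N → M} {z : N} (H : LI h g f z) :
    PZ h z u α ψ ↔ PZ g (f z) u α ψ := by
  simp only [PZ, li_zP H]
  exact li_all H (P := fun e => ∀ w, w ≠ 0 → 0 < zP g (f z) u α ψ e w)

lemma li_NZ {h : Ten E3 N} {f : N → M} {z : N} (H : LI h g f z) :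
    NZ h z u α ψ ↔ NZ g (f z) u α ψ := by
  simp only [NZ, li_zP H]
  exact li_all H (P := fun e => ∀ w, 0 ≤ zP g (f z) u α ψ e w)

lemma mk0 (hg : Met g U) (hx : x ∈ U) (c d : Fin 3) : mk (fun k => Rm g k x) e 0 ![] c d =
    P216BF.R4 g x (e (c + 1)) (e (c + 2)) (e (d + 2)) (e (d + 1)) := P216BF.rm0 hg hx _

lemma mk0_symm (hg : Met g U) (hx : x ∈ U) (c d : Fin 3) :
    mk (fun k => Rm g k x) e 0 ![] c d = mk (fun k => Rm g k x) e 0 ![] d c := by
  rw [mk0 hg hx, mk0 hg hx, P216BF.R4_pair hg hx, P216BF.R4_skew, P216BF.R4_skew' hg hx, neg_neg]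

lemma mk0_nonneg (hg : Met g U) (hx : x ∈ U) (hs : SecGe g x 0) (y : Fin 3 → ℝ) :
    0 ≤ bf (mk (fun k => Rm g k x) e 0 ![]) y y := by
  obtain ⟨A, B, rfl⟩ := exists_cx y
  have h := hs (A 0 • e 0 + A 1 • e 1 + A 2 • e 2) (B 0 • e 0 + B 1 • e 1 + B 2 • e 2)
  rw [zero_mul, P216BF.secN_eq hg hx] at h
  refine h.trans_eq ?_
  simp only [bf, dt, cx, mk0 hg hx, f01, f02, f11, f12, f21, f22, P216BF.R4_add1, P216BF.R4_add2,
    P216BF.R4_add3, P216BF.R4_add4, P216BF.R4_smul1, P216BF.R4_smul2, P216BF.R4_smul3,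
    P216BF.R4_smul4, P216BF.R4_self, P216BF.R4_self' hg hx, P216BF.R4_skew (e 1) (e 0),
    P216BF.R4_skew (e 2) (e 1), P216BF.R4_skew (e 0) (e 2), P216BF.R4_skew' hg hx _ _ (e 0) (e 1),
    P216BF.R4_skew' hg hx _ _ (e 1) (e 2), P216BF.R4_skew' hg hx _ _ (e 2) (e 0)]
  ring

omit [IsManifold 𝓘(ℝ, E3) ∞ M] in
lemma abs_mk (he : ON (g x) e) {k : ℕ} (h : RmB g k x C) (w : Fin k → Fin 3) (c d : Fin 3) :
    |mk (fun k => Rm g k x) e k w c d| ≤ C := h _ fun i => by rw [he]; simp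

/-- the form is positive when the perturbation is large -/
lemma pz_crude (hg : Met g U) (hx : x ∈ U) (hs : SecGe g x 0) (hC : ∀ k ≤ 2, RmB g k x C)
    (hu : 0 ≤ u) (hψ : 0 < ψ)
    (h : 3 * (8 * C ^ 2 + 4 * C) * ψ + 18 * (8 * C ^ 2 + 4 * C) ^ 2 < ψ * α) : PZ g x u α ψ :=
  fun e he w hw => crude (mk0_symm hg hx) (mk0_nonneg hg hx hs)
    (abs_hp (abs_mk he (hC 0 (by simp)) _) fun p q => abs_mk he (hC 2 le_rfl) _)
    (fun a b => (abs_tp (fun p => abs_mk he (hC 1 (by simp)) _) a b).trans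
      (by nlinarith [P216BF.rmB_nonneg (hC 0 (by simp))])) hu hψ h
    (by contrapose! hw; exact Prod.ext hw.1 hw.2)

end static

variable {g : ℝ → Ten E3 M} {I : Set ℝ} {U : Set M}

lemma cont_zP (h : Fam g I U) (a : M) {X : Type*} [TopologicalSpace X] {S : Set X} {x : X}
    {τ u α ψ : X → ℝ} {z : X → E3} {e : X → Fin 3 → E3} {w : X → (Fin 3 → ℝ) × (Fin 3 → ℝ)}
    (hτ : ContinuousWithinAt τ S x) (hI : MapsTo τ S I) (ht : τ x ∈ I)
    (hz : ContinuousWithinAt z S x) (hd : z x ∈ dom E3 a U) (he : ContinuousWithinAt e S x)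
    (hu : ContinuousWithinAt u S x) (hα : ContinuousWithinAt α S x)
    (hψ : ContinuousWithinAt ψ S x) (hw : ContinuousWithinAt w S x) :
    ContinuousWithinAt (fun q => zP (co (g (τ q)) a) (z q) (u q) (α q) (ψ q) (e q) (w q)) S x := by
  have h2 := continuousWithinAt_pi.1 hw.fst
  have h3 := continuousWithinAt_pi.1 hw.snd
  refine ((cont_zR (fun k j => ?_) hu hw.fst hw.snd).add ?_).add ?_
  · simp only [Rm_model]
    exact ContinuousWithinAt.comp (f := fun q => (τ q, z q, fun s => e q (j s)))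
      (h.ps_rmG ht hd k _).continuousWithinAt (hτ.prodMk (hz.prodMk (continuousWithinAt_pi.2
        fun s => continuousWithinAt_pi.1 he _))) fun q hq => ⟨hI hq, trivial⟩
  all_goals simp only [dt]; fun_prop

/-- positivity is an open condition -/
lemma pz_open (h : Fam g I U) {u ψ : ℝ → ℝ} {α : ℝ × M → ℝ} (hu : ContinuousOn u I)
    (hψ : ContinuousOn ψ I) (hα : ContinuousOn α (I ×ˢ U)) {q : ℝ × M} (hq : q ∈ I ×ˢ U)
    (hp : PZ (g q.1) q.2 (u q.1) (α q) (ψ q.1)) :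
    ∀ᶠ r in 𝓝[I ×ˢ U] q, PZ (g r.1) r.2 (u r.1) (α r) (ψ r.1) := by
  have k0 := mem_chart_source E3 q.2
  have k1 : ContinuousAt (fun r : ℝ × M => chartAt E3 q.2 r.2) q :=
    ContinuousAt.comp (f := Prod.snd) ((chartAt E3 q.2).continuousAt k0) continuousAt_snd
  have k2 : ∀ {Y : Type} [TopologicalSpace Y] {φ : ℝ × M → Y} (_ : ContinuousWithinAt φ (I ×ˢ U) q)
      (w : (Fin 3 → E3) × (Fin 3 → ℝ) × (Fin 3 → ℝ)), ContinuousWithinAt
      (fun r : (ℝ × M) × (Fin 3 → E3) × (Fin 3 → ℝ) × (Fin 3 → ℝ) => φ r.1) ((I ×ˢ U) ×ˢ univ)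
      (q, w) := fun k w => ContinuousWithinAt.comp (f := Prod.fst) k continuousWithinAt_fst
        fun _ l => l.1
  have k3 : ∀ {φ : ℝ → ℝ}, ContinuousOn φ I → ContinuousWithinAt (fun r : ℝ × M => φ r.1) (I ×ˢ U) q :=
    fun k => ContinuousWithinAt.comp (f := Prod.fst) (k _ hq.1) continuousWithinAt_fst fun _ l => l.1
  have k4 : ContinuousWithinAt (fun r : ℝ × M => co (g r.1) q.2 (chartAt E3 q.2 r.2)) (I ×ˢ U) q :=
    ContinuousWithinAt.comp (f := fun r : ℝ × M => (r.1, chartAt E3 q.2 r.2))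
      (h.ps hq.1 (pt_mem_dom hq.2)).continuousWithinAt
      (continuousAt_fst.prodMk k1).continuousWithinAt fun r hr => ⟨hr.1, trivial⟩
  have k5 := fun w => cont_zP h q.2 (k2 (φ := Prod.fst) continuousWithinAt_fst w)
    (fun r hr => hr.1.1) hq.1 (k2 k1.continuousWithinAt w) (pt_mem_dom hq.2)
    continuousWithinAt_snd.fst (k2 (k3 hu) w) (k2 (hα q hq) w) (k2 (k3 hψ) w)
    continuousWithinAt_snd.snd
  have := open_pos k4 (h.co_pos hq.1 (pt_mem_dom hq.2)) k5 (fun z e y s => zP_smul s y)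
    fun e he w hw => (li_PZ (li_chart (h.met hq.1) hq.2 k0)).1 hp e he w hw
  filter_upwards [this, self_mem_nhdsWithin, mem_nhdsWithin_of_mem_nhds
    (continuousAt_snd.eventually ((chartAt E3 q.2).open_source.mem_nhds k0))] with r a b c
  exact (li_PZ (li_chart (h.met b.1) b.2 c)).2 fun e he w hw => a e he w hw

/-- nonnegativity passes to the limit in time -/
lemma nz_lim (h : Fam g I U) {u α ψ : ℝ → ℝ} {J : Set ℝ} (hJ : J ⊆ I) {t : ℝ} (ht : t ∈ I)
    [(𝓝[J] t).NeBot] (hu : ContinuousWithinAt u J t) (hα : ContinuousWithinAt α J t)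
    (hψ : ContinuousWithinAt ψ J t) {x : M} (hx : x ∈ U)
    (hp : ∀ᶠ s in 𝓝[J] t, NZ (g s) x (u s) (α s) (ψ s)) : NZ (g t) x (u t) (α t) (ψ t) := by
  have k0 := mem_chart_source E3 x
  have k2 : ∀ {φ : ℝ → ℝ} (_ : ContinuousWithinAt φ J t) (e : Fin 3 → E3), ContinuousWithinAt
      (fun r : ℝ × (Fin 3 → E3) => φ r.1) (J ×ˢ univ) (t, e) := fun k w =>
    ContinuousWithinAt.comp (f := Prod.fst) k continuousWithinAt_fst fun _ l => l.1
  refine (li_NZ (li_chart (h.met ht) hx k0)).2 fun e he w => ?_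
  refine nonneg_lim (S := J) (G := fun s => co (g s) x (pt E3 x))
    (Φ := fun r => zP (co (g r.1) x) (pt E3 x) (u r.1) (α r.1) (ψ r.1) r.2 w)
    ((h.ps ht (pt_mem_dom hx)).time.continuousWithinAt.mono hJ)
    (fun s hs => ((h.met (hJ hs)).isMetricOn x).symm _ (pt_mem_dom hx)) he
    (cont_zP h x (τ := Prod.fst) (z := fun _ => pt E3 x) (e := Prod.snd) (w := fun _ => w)
      continuousWithinAt_fst (fun r hr => hJ hr.1) ht continuousWithinAt_const
      (pt_mem_dom hx) continuousWithinAt_snd (k2 hu e) (k2 hα e) (k2 hψ e) continuousWithinAt_const)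
    ?_
  filter_upwards [hp, self_mem_nhdsWithin] with s a b e he
  exact (li_NZ (li_chart (h.met (hJ b)) hx k0)).1 a e he w

end Vale.Agent.P216H
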